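import Vale.Agent.P106.AN.Base

/-! # P106 / W2 : the estimate (E) for the radially truncated cone in `ℝ⁴` (helper301)

Conventions of `AN/Base` (helper577): `z = (x'₀, x'₁, t, u)`, cone `ξ = ρ (-s, |s|²/2, 1)`, `R = 2^(2 K n)`, caps = slope cells of
side `2^(-K n)`, `|ρ - ρ₀| ≤ C 2^(-h n)`, planks `2^(h n) × 2^(K n) × 2^(K n) × 2^(2 K n)`.
The data hyperplane is `u / 64 + t / 2 = 0`. -/

open MeasureTheory Complex Set
open Vale.Agent.P122.C2 (Z2 fw fn par kids Cap)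
open Vale.Agent.P106.AN
open scoped ENNReal NNReal FourierTransform

namespace Vale.Agent.P106.W301

abbrev E3 := EuclideanSpace ℝ (Fin 3)

/-- the point of the data hyperplane `u / 64 + t / 2 = 0` with `x' = (y 0, y 1)`, `u = y 2` -/
noncomputable def hp (y : E3) : E4 := !₂[y 0, y 1, -(y 2) / 32, y 2]

/-- plank of level `K`: cap `θ`, horizontal index `o`, index `w` of the null coordinate (positions at `t = 0`) -/
structure Pk where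
  θ : Z2
  o : Z2
  w : ℤ
deriving DecidableEq

/-- the gauge of the plank `S`, base point `pt (2^κ) (2^(K n)) 0 (slp n K θ) o w` -/
noncomputable def Pk.gg (κ K n : ℕ) (S : Pk) (z : E4) : ℝ :=
  gau 0 (2 ^ κ) (2 ^ (K * n)) (2 ^ (K * n)) (2 ^ (2 * K * n)) (slp n K S.θ)
    (z - pt (2 ^ κ) (2 ^ (K * n)) 0 (slp n K S.θ) S.o S.w)

/-- the gauge of the infinitely long plank (the same without the term `|t| / R`): on the data hyperplane this is the gauge of the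
plate in which the plank meets the hyperplane -/
noncomputable def Pk.g0 (κ K n : ℕ) (S : Pk) (z : E4) : ℝ :=
  |nl (slp n K S.θ) (z - pt (2 ^ κ) (2 ^ (K * n)) 0 (slp n K S.θ) S.o S.w)| / 2 ^ κ +
    (|dv (slp n K S.θ) (z - pt (2 ^ κ) (2 ^ (K * n)) 0 (slp n K S.θ) S.o S.w) 0| +
      |dv (slp n K S.θ) (z - pt (2 ^ κ) (2 ^ (K * n)) 0 (slp n K S.θ) S.o S.w) 1|) / 2 ^ (K * n)

/-- energy of the piece `g S.θ` on the plank `S` -/
noncomputable def Pk.en (M κ K n : ℕ) (g : Z2 → E4 → ℂ) (S : Pk) : ℝ≥0∞ :=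
  ∫⁻ z, ‖𝓕⁻ (g S.θ) z‖ₑ ^ 2 * ENNReal.ofReal (((1 + S.gg κ K n z) ^ M)⁻¹)

/-- **[BES]** position dependent Bessel inequality on the data hyperplane, box free: this is what bounded data give.
The plates are enlarged by the factor `2^n`. -/
def Bes (M κ K n : ℕ) (g : Z2 → E4 → ℂ) (Λ : ℝ) : Prop :=
  ∀ U : Finset Pk, ∑ S ∈ U, S.en M κ K n g ≤
    ENNReal.ofReal (Λ * 2 ^ (2 * K * n)) * volume {y : E3 | ∃ S ∈ U, S.g0 κ K n (hp y) ≤ 2 ^ n}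

/-- **[E]** `∫ |F|^P ≤ R^ε Λ^((P-2)/2) ∑ ∫ |F_θ|² w_R` on the half cube `0 ≤ t` of side `R = 2^(2 K n)`;
`P = 3`, or `P = 2 + 2/N` for the price `N` -/
def StE (P : ℝ) : Prop := ∀ ε : ℝ, 0 < ε → ∃ K h : ℕ, 1 ≤ K ∧ (h : ℝ) ≤ ε * K ∧ ∀ (M : ℕ) (C0 : ℝ), 1 ≤ C0 →
  ∃ C : ℝ, 0 ≤ C ∧ ∀ (n : ℕ) (ρ : ℝ) (g : Z2 → E4 → ℂ) (Λ : ℝ),
    Dat C0 (h * n) K n ρ g → 0 ≤ Λ → Bes M (h * n) K n g Λ →
    ∫⁻ z in {z : E4 | (∀ i, |z i| ≤ 2 ^ (2 * K * n)) ∧ 0 ≤ z 2}, ‖pie K n g 0 0 z‖ₑ ^ P ≤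
      ENNReal.ofReal (C * 2 ^ (ε * (K * n)) * Λ ^ ((P - 2) / 2)) * enw M K n g

end Vale.Agent.P106.W301
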