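import Vale.Agent.P106.G.Kin

/-! # P106 / W2 : the position dependent Bessel inequality for the data (statement, helper301; owner of the proof: helper401)

`MP H c N b1 b2 k` = fattened multiplier of the cap `k` (G/KinG), `Pb` = plank map (G/KinA: `Pb β1 β2 τ u` =
(null coordinate, `τ ·` horizontal coordinates)). Plate of the cap `k` on the data hyperplane, thickness `T`, centre `x`
in the coordinates `Pb`. -/

open MeasureTheory Complex Set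
open scoped ENNReal NNReal FourierTransform

set_option linter.all false

namespace Vale.Agent.P106.W301

open Vale.Agent.P106.G
open Vale.Agent.P117 (Adm)

/-- gauge of the plate of the cap `k`, thickness `T`, centre `x` -/
noncomputable def pg (H : Hyp) (N : ℕ) (T b1 b2 : ℝ) (k : ℤ × ℤ) (x : G.E3) (y : G.E3) : ℝ :=
  |Pb (k.1 / N + b1) (k.2 / N + b2) (1 / N) (H.pt y) 0 - x 0| / T +
    |Pb (k.1 / N + b1) (k.2 / N + b2) (1 / N) (H.pt y) 1 - x 1| +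
    |Pb (k.1 / N + b1) (k.2 / N + b2) (1 / N) (H.pt y) 2 - x 2|

/-- **[BESD]** -/
def StBESD : Prop := ∀ (c : ℝ) (K : ℕ), 0 < c → c ≤ 1 → ∃ M0 : ℕ, ∀ (M : ℕ) (B : ℝ), M0 ≤ M → 0 ≤ B → ∃ C : ℝ, 0 ≤ C ∧
  ∀ (H : Hyp) (N : ℕ) (T L b1 b2 A0 : ℝ) (h0 : G.E3 → ℂ), H.ok2 → 1 ≤ N → 1 ≤ T → 2 ≤ L → (N:ℝ) ≤ L ^ K → Adm volume h0 →
    (∀ x, ‖h0 x‖ ≤ A0) → ∀ (ι : Type) (U : Finset ι) (k : ι → ℤ × ℤ) (x : ι → G.E3),
    (∀ S ∈ U, k S ∈ grd N ∧ Cap ((k S).1 / N + b1) ((k S).2 / N + b2) (1 / N)) →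
    (∀ (k0 : ℤ × ℤ) (y : G.E3), ∑ S ∈ U, (if k S = k0 then ENNReal.ofReal (((1 + pg H N T b1 b2 k0 (x S) y) ^ 6)⁻¹) else 0) ≤
      ENNReal.ofReal B) →
    ∑ S ∈ U, ∫⁻ y, ‖mop (MP H c N b1 b2 (k S)) h0 y‖ₑ ^ 2 * ENNReal.ofReal (((1 + pg H N T b1 b2 (k S) (x S) y) ^ M)⁻¹) ≤
      ENNReal.ofReal (C * A0 ^ 2) * volume {y : G.E3 | ∃ S ∈ U, pg H N T b1 b2 (k S) (x S) y ≤ L}

end Vale.Agent.P106.W301
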