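import Vale.Agent.P106.W301.Enr

/-! # P106 / W2 : the Bessel inequality of the pieces (helper301) -/

open MeasureTheory Complex Set
open scoped ENNReal NNReal FourierTransform SchwartzMap ContDiff

set_option linter.all false

namespace Vale.Agent.P106.W301

open Vale.Agent.P106.G (psv chi0 chiP capc mat4 Pb Hyp H0 H0_ok2 sf sf_le sK mem_sK sK_sub cap_sK gp Mc MP grd vcut_psv mop inv_eq continuous_inv
  aP_integrable sm_mu r1_chi0 vc_capc mint sum_MP_L2 cap_m mat3 mat3_apply mat3_emb mat3_det)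
open Vale.Agent.P106.Tri (ec norm_ec)
open Vale.Agent.P117 (Adm)
open Vale.Agent.P122.C2 (Z2)

/-- coordinates of the data hyperplane -/
def hpM : Matrix (Fin 3) (Fin 3) ℝ := !![0, -1, 0; 0, 0, -1; 1, 0, 0]

theorem hpM_det : hpM.det = 1 := by
  unfold hpM
  rw [Matrix.det_fin_three]
  simp

theorem hp_mat (y : G.E3) : hp (mat3 hpM y) = mat4 nwM (H0.pt y) := by
  have e0 : mat3 hpM y 0 = - y 1 := by rw [mat3_apply]; simp [hpM]
  have e1 : mat3 hpM y 1 = - y 2 := by rw [mat3_apply]; simp [hpM]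
  have e2 : mat3 hpM y 2 = y 0 := by rw [mat3_apply]; simp [hpM]
  apply G.ext4
  · rw [nw0]
    show mat3 hpM y 0 = _
    rw [e0]; rfl
  · rw [nw1]
    show mat3 hpM y 1 = _
    rw [e1]; rfl
  · rw [nw2]
    show -(mat3 hpM y 2) / 32 = _
    rw [e2]
    show _ = 2 * (-(H0.s * y 0 + H0.q1 * y 1 + H0.q2 * y 2))
    rw [G.H0_s, G.H0_q1, G.H0_q2]; ring
  · rw [nw3]
    show mat3 hpM y 2 = _
    rw [e2]; rfl

theorem vol_hp (P : AN.E4 → Prop) : volume {y : G.E3 | P (mat4 nwM (H0.pt y))} = volume {y : E3 | P (hp y)} := by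
  have hd : hpM.det ≠ 0 := by rw [hpM_det]; norm_num
  have hdet : LinearMap.det (mat3 hpM) ≠ 0 := by rwa [mat3_det]
  have hmap := Measure.map_linearMap_addHaar_eq_smul_addHaar (μ := (volume : Measure G.E3)) hdet
  rw [mat3_det, hpM_det] at hmap
  simp only [inv_one, abs_one, ENNReal.ofReal_one, one_smul] at hmap
  have h2 := (mat3_emb hd).map_apply volume {y : E3 | P (hp y)}
  rw [hmap] at h2
  rw [h2]
  congr 1
  ext y
  show P (mat4 nwM (H0.pt y)) ↔ P (hp (mat3 hpM y))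
  rw [hp_mat]

theorem pg_pgr {H : Hyp} {κ K n N : ℕ} (hN : (N:ℝ) = 2 ^ (K * n)) (b1 b2 : ℝ) (S : Pk) (y : G.E3) :
    pg H N (2 ^ κ) b1 b2 (kk S.θ) (xS H κ K n b1 b2 S) y = pgr H κ K n b1 b2 S y := by
  unfold pg pgr
  rw [hN]
  rfl

theorem kk_surj (k : ℤ × ℤ) : ∃ θ, kk θ = k := ⟨![k.1, k.2], rfl⟩

theorem inv_pow_mono {a : ℝ} (ha : 1 ≤ a) {m n : ℕ} (h : m ≤ n) : (a ^ n)⁻¹ ≤ (a ^ m)⁻¹ :=
  inv_anti₀ (by positivity) (pow_le_pow_right₀ ha h)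

/-- **[BES]** for the pieces -/
theorem bes_pc (hB : StBESD) (K : ℕ) (hK : 1 ≤ K) : ∃ M0 : ℕ, ∀ (M : ℕ) (r1 A0 : ℝ), M0 ≤ M → 0 < r1 → ∃ Λ : ℝ, 0 ≤ Λ ∧
    ∀ (κ n N : ℕ) (j : ℝ) (h0 : G.E3 → ℂ) (o : Fin 2 × Fin 2), N = 2 ^ (K * n) → κ ≤ K * n → 5 ≤ n → Adm volume h0 →
    (∀ x, ‖h0 x‖ ≤ A0) → Bes M κ K n (pc N (2 ^ κ) j r1 h0 o) Λ := by
  classical
  obtain ⟨M0, hM0⟩ := hB 1 (2 * K) one_pos le_rfl
  refine ⟨M0, ?_⟩
  intro M r1 A0 hM hr1
  obtain ⟨B, hB0, hovl⟩ := ovl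
  obtain ⟨C1, hC1, h1⟩ := hM0 M (4 ^ 4 * B) hM (by positivity)
  obtain ⟨C2, hC2, h2⟩ := en_bd hr1 M
  refine ⟨C2 * (C1 * A0 ^ 2), by positivity, ?_⟩
  intro κ n N j h0 o hNe hκ hn hh hA U
  have hNr : (N:ℝ) = 2 ^ (K * n) := by rw [hNe]; push_cast; rfl
  have h5 : 5 ≤ K * n := by nlinarith
  have hN : 32 ≤ N := by
    rw [hNe]
    calc 32 = 2 ^ 5 := by norm_num
      _ ≤ 2 ^ (K * n) := Nat.pow_le_pow_right (by norm_num) h5
  have hN1 : 1 ≤ N := by omega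
  have hN0 : (0:ℝ) < N := by exact_mod_cast hN1
  set V := U.filter (fun S => kk S.θ ∈ sK psv psv N) with hV
  have hVk : ∀ S ∈ V, kk S.θ ∈ sK psv psv N := fun S hS => (Finset.mem_filter.1 hS).2
  -- geometry of the caps
  have geo : ∀ S ∈ V, ∀ y, pgr H0 κ K n (sf N o.1) (sf N o.2) S y ≤ 4 * S.g0 κ K n (mat4 nwM (H0.pt y)) ∧
      S.g0 κ K n (mat4 nwM (H0.pt y)) ≤ 4 * pgr H0 κ K n (sf N o.1) (sf N o.2) S y := by
    intro S hS y
    obtain ⟨hCp, ⟨c1, c2⟩, c3, c4⟩ := cap_sK vcut_psv vcut_psv hN (hVk S hS) o.1 o.2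
    have hi : 0 < 1 / (N:ℝ) := by positivity
    have hm' := (cap_m H0_ok2 hCp).1
    have hm := (H0_ok2.m_bd c1 (by linarith : ((kk S.θ).1:ℝ) / N ≤ 1) c3 (by linarith : ((kk S.θ).2:ℝ) / N ≤ 1)).1
    have hs0 : sl K n S.θ 0 = ((kk S.θ).1:ℝ) / N := by rw [hNr]; rfl
    have hs1 : sl K n S.θ 1 = ((kk S.θ).2:ℝ) / N := by rw [hNr]; rfl
    have hf1 := sf_le hN1 o.1
    have hf2 := sf_le hN1 o.2
    rw [hNr] at hf1 hf2
    exact pg_cmp H0_ok2.ok.bd (S := S) (b1 := sf N o.1) (b2 := sf N o.2) hκ (by rw [hs0, hs1]; exact hm) (by rw [hs0, hs1]; exact hm')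
      (by rw [hs0]; exact c1) (by rw [hs0]; linarith) (by rw [hs1]; exact c3) (by rw [hs1]; linarith)
      (by rw [hs0]; exact hCp.l1) (by rw [hs0]; linarith [hCp.r1]) (by rw [hs1]; exact hCp.l2) (by rw [hs1]; linarith [hCp.r2])
      hf1 hf2 y
  have hL : (2:ℝ) ≤ 2 ^ (n - 2) := by
    calc (2:ℝ) = 2 ^ 1 := (pow_one _).symm
      _ ≤ 2 ^ (n - 2) := pow_le_pow_right₀ (by norm_num) (by omega)
  have hNL : (N:ℝ) ≤ (2 ^ (n - 2)) ^ (2 * K) := by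
    rw [hNr, ← pow_mul]
    apply pow_le_pow_right₀ (by norm_num)
    have : n ≤ (n - 2) * 2 := by omega
    calc K * n ≤ K * ((n - 2) * 2) := Nat.mul_le_mul_left _ this
      _ = (n - 2) * (2 * K) := by ring
  have hmain := h1 H0 N (2 ^ κ) (2 ^ (n - 2)) (sf N o.1) (sf N o.2) A0 h0 H0_ok2 hN1 (one_le_pow₀ (by norm_num)) hL hNL hh hA Pk V
    (fun S => kk S.θ) (fun S => xS H0 κ K n (sf N o.1) (sf N o.2) S)
    (fun S hS => ⟨sK_sub _ _ _ (hVk S hS), (cap_sK vcut_psv vcut_psv hN (hVk S hS) o.1 o.2).1⟩) (by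
      intro k0 y
      obtain ⟨θ0, rfl⟩ := kk_surj k0
      calc _ ≤ ∑ S ∈ V, ENNReal.ofReal (4 ^ 4) * (if S.θ = θ0 then ENNReal.ofReal (((1 + S.g0 κ K n (mat4 nwM (H0.pt y))) ^ 4)⁻¹) else 0) := by
            refine Finset.sum_le_sum fun S hS => ?_
            by_cases hθ : S.θ = θ0
            · rw [if_pos (by rw [hθ]), if_pos hθ, ← hθ, pg_pgr hNr, ← ENNReal.ofReal_mul (by positivity)]
              apply ENNReal.ofReal_le_ofReal
              have g1 : 0 ≤ pgr H0 κ K n (sf N o.1) (sf N o.2) S y := by unfold pgr; positivity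
              have g2 := g0_nonneg κ K n S (mat4 nwM (H0.pt y))
              refine (inv_pow_mono (by linarith) (show 4 ≤ 6 by norm_num)).trans ?_
              apply inv_pow_le 4 (by linarith) (by linarith) (by norm_num)
              have := (geo S hS y).2
              linarith
            · rw [if_neg (fun h => hθ (kk_inj h)), if_neg hθ]
              simp
        _ = ENNReal.ofReal (4 ^ 4) * ∑ S ∈ V, (if S.θ = θ0 then ENNReal.ofReal (((1 + S.g0 κ K n (mat4 nwM (H0.pt y))) ^ 4)⁻¹) else 0) := by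
            rw [Finset.mul_sum]
        _ ≤ ENNReal.ofReal (4 ^ 4) * ENNReal.ofReal B := by gcongr; exact hovl κ K n V θ0 (H0.pt y)
        _ = _ := by rw [← ENNReal.ofReal_mul (by positivity)])
  have hpgr : ∀ S y, pg H0 N (2 ^ κ) (sf N o.1) (sf N o.2) (kk S.θ) (xS H0 κ K n (sf N o.1) (sf N o.2) S) y =
      pgr H0 κ K n (sf N o.1) (sf N o.2) S y := fun S y => pg_pgr hNr _ _ S y
  simp only [hpgr] at hmain
  calc ∑ S ∈ U, S.en M κ K n (pc N (2 ^ κ) j r1 h0 o) = ∑ S ∈ V, S.en M κ K n (pc N (2 ^ κ) j r1 h0 o) := by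
        rw [hV, Finset.sum_filter]
        refine Finset.sum_congr rfl fun S _ => ?_
        by_cases hk : kk S.θ ∈ sK psv psv N
        · rw [if_pos hk]
        · rw [if_neg hk]
          unfold Pk.en
          rw [pc_neg hk]
          have : 𝓕⁻ (0 : AN.E4 → ℂ) = fun _ => 0 := by
            ext w
            rw [inv_eq]; simp
          rw [this]
          simp
    _ ≤ ∑ S ∈ V, ENNReal.ofReal (C2 * (N:ℝ) ^ 2) * ∫⁻ y, ‖gp H0 1 N h0 o (kk S.θ) y‖ₑ ^ 2 *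
          ENNReal.ofReal (((1 + pgr H0 κ K n (sf N o.1) (sf N o.2) S y) ^ M)⁻¹) :=
        Finset.sum_le_sum fun S hS => h2 κ K n N j h0 o S hNe hκ hN hh (hVk S hS)
    _ = ENNReal.ofReal (C2 * (N:ℝ) ^ 2) * ∑ S ∈ V, ∫⁻ y, ‖mop (MP H0 1 N (sf N o.1) (sf N o.2) (kk S.θ)) h0 y‖ₑ ^ 2 *
          ENNReal.ofReal (((1 + pgr H0 κ K n (sf N o.1) (sf N o.2) S y) ^ M)⁻¹) := by
        rw [Finset.mul_sum]; rfl
    _ ≤ ENNReal.ofReal (C2 * (N:ℝ) ^ 2) * (ENNReal.ofReal (C1 * A0 ^ 2) *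
          volume {y : G.E3 | ∃ S ∈ V, pgr H0 κ K n (sf N o.1) (sf N o.2) S y ≤ 2 ^ (n - 2)}) := by
        gcongr
    _ ≤ ENNReal.ofReal (C2 * (N:ℝ) ^ 2) * (ENNReal.ofReal (C1 * A0 ^ 2) *
          volume {y : G.E3 | ∃ S ∈ U, S.g0 κ K n (mat4 nwM (H0.pt y)) ≤ 2 ^ n}) := by
        refine mul_le_mul' le_rfl (mul_le_mul' le_rfl (measure_mono ?_))
        rintro y ⟨S, hS, hy⟩
        refine ⟨S, (Finset.mem_filter.1 hS).1, ?_⟩
        refine ((geo S hS y).2).trans ?_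
        have : (2:ℝ) ^ n = 4 * 2 ^ (n - 2) := by
          have : n = (n - 2) + 2 := by omega
          conv_lhs => rw [this]
          rw [pow_add]; ring
        rw [this]
        linarith
    _ = _ := by
        rw [vol_hp (fun z => ∃ S ∈ U, S.g0 κ K n z ≤ 2 ^ n), ← mul_assoc, ← ENNReal.ofReal_mul (by positivity)]
        congr 2
        have e2 : (2:ℝ) ^ (2 * K * n) = (N:ℝ) ^ 2 := by rw [hNr, ← pow_mul]; congr 1; ring
        rw [e2]
        ring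

end Vale.Agent.P106.W301
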