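import Vale.Agent.P106.W301.StE
import Vale.Agent.P106.W301.BesD
import Vale.Agent.P106.G.FinA

/-! # P106 / W2 : change of coordinates between `P106/G` and `P106/AN` (helper301)

`G` : `z = (u, z₁, z₂, z₃)`, cone `ρ (1, v, |v|²)`, rays `kap v = (|v|², -2v, 1)`.
`AN` : `(x'₀, x'₁, t, u) = (-z₁, -z₂, 2 z₃, u)`, `s = v`. -/

open MeasureTheory Complex Set
open scoped ENNReal NNReal FourierTransform

set_option linter.all false

namespace Vale.Agent.P106.W301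

open Vale.Agent.P106.G (mat4 mat4_apply mat4_det mat4_emb integral_mat4 lintegral_mat4 integrable_mat4 inv_eq inner4 Pb Hyp H0)
open Vale.Agent.P106.Tri (ec)
open Vale.Agent.P122.C2 (Z2)

/-- matrix of the change of coordinates in physical space -/
def nwM : Matrix (Fin 4) (Fin 4) ℝ := !![0, -1, 0, 0; 0, 0, -1, 0; 0, 0, 0, 2; 1, 0, 0, 0]

theorem nwM_det : nwM.det = -2 := by
  unfold nwM
  rw [Matrix.det_succ_row_zero, Fin.sum_univ_four]
  simp [Matrix.det_fin_three, Matrix.submatrix_apply, Fin.succAbove]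

theorem nw0 (z : AN.E4) : mat4 nwM z 0 = - z 1 := by rw [mat4_apply]; simp [nwM, Fin.sum_univ_four]
theorem nw1 (z : AN.E4) : mat4 nwM z 1 = - z 2 := by rw [mat4_apply]; simp [nwM, Fin.sum_univ_four]
theorem nw2 (z : AN.E4) : mat4 nwM z 2 = 2 * z 3 := by rw [mat4_apply]; simp [nwM, Fin.sum_univ_four]
theorem nw3 (z : AN.E4) : mat4 nwM z 3 = z 0 := by rw [mat4_apply]; simp [nwM, Fin.sum_univ_four]

theorem fr0 (ξ : AN.E4) : mat4 nwM.transpose ξ 0 = ξ 3 := by rw [mat4_apply]; simp [nwM, Fin.sum_univ_four]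
theorem fr1 (ξ : AN.E4) : mat4 nwM.transpose ξ 1 = - ξ 0 := by rw [mat4_apply]; simp [nwM, Fin.sum_univ_four]
theorem fr2 (ξ : AN.E4) : mat4 nwM.transpose ξ 2 = - ξ 1 := by rw [mat4_apply]; simp [nwM, Fin.sum_univ_four]
theorem fr3 (ξ : AN.E4) : mat4 nwM.transpose ξ 3 = 2 * ξ 2 := by rw [mat4_apply]; simp [nwM, Fin.sum_univ_four]

theorem nw_inner (ξ z : AN.E4) : inner ℝ ξ (mat4 nwM z) = inner ℝ (mat4 nwM.transpose ξ) z := by
  rw [inner4, inner4, nw0, nw1, nw2, nw3, fr0, fr1, fr2, fr3]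
  ring

theorem nwT_det : nwM.transpose.det = -2 := by rw [Matrix.det_transpose, nwM_det]

/-- amplitude in the new coordinates -/
noncomputable def gN (a : AN.E4 → ℂ) (ξ : AN.E4) : ℂ := 2 * a (mat4 nwM.transpose ξ)

theorem gN_int {a : AN.E4 → ℂ} (ha : Integrable a) : Integrable (gN a) :=
  (integrable_mat4 (by rw [nwT_det]; norm_num) ha).const_mul 2

theorem inv_gN (a : AN.E4 → ℂ) (z : AN.E4) : 𝓕⁻ (gN a) (mat4 nwM z) = 𝓕⁻ a z := by
  rw [inv_eq, inv_eq]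
  have h := integral_mat4 (A := nwM.transpose) (by rw [nwT_det]; norm_num) (fun v => ec (inner ℝ v z) * a v)
  have e : ∀ ξ : AN.E4, ec (inner ℝ ξ (mat4 nwM z)) * gN a ξ =
      2 * (ec (inner ℝ (mat4 nwM.transpose ξ) z) * a (mat4 nwM.transpose ξ)) := by
    intro ξ
    rw [nw_inner]; unfold gN; ring
  simp_rw [e]
  rw [integral_const_mul, h, nwT_det]
  simp

/-- integrals in the new coordinates -/
theorem lint_nw (Φ : AN.E4 → ℝ≥0∞) : ∫⁻ w, Φ w = 2 * ∫⁻ z, Φ (mat4 nwM z) := by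
  rw [lintegral_mat4 (A := nwM) (by rw [nwM_det]; norm_num) Φ, nwM_det, ← mul_assoc]
  have : (2:ℝ≥0∞) * ENNReal.ofReal |(-2:ℝ)⁻¹| = 1 := by
    have : |(-2:ℝ)⁻¹| = 2⁻¹ := by norm_num [abs_of_neg]
    rw [this, ENNReal.ofReal_inv_of_pos (by norm_num)]
    simp only [ENNReal.ofReal_ofNat]
    exact ENNReal.mul_inv_cancel (by norm_num) (by norm_num)
  rw [this, one_mul]

end Vale.Agent.P106.W301
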