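import Vale.Agent.P106.W301.Enr

/-! # P106 / W2 : the pieces satisfy `Dat`, and they sum up to the solution (helper301) -/

open MeasureTheory Complex Set
open scoped ENNReal NNReal FourierTransform SchwartzMap ContDiff

set_option linter.all false

namespace Vale.Agent.P106.W301

open Vale.Agent.P106.G (psi psi_supp psi_sum_Icc psv chi0 chiP capc capc_supp chi0_supp mat4 Pb Hyp H0 H0_ok2 sf sf_le sK mem_sK sK_sub cap_sK gp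
  Mc MP grd vcut_psv mop inv_eq continuous_inv aP_integrable aP_supp sm_mu r1_chi0 vc_capc mint loc_aux mu_cone' Ga_cone abs_coord_le Psi
  inv_aP shT_zero sp3)
open Vale.Agent.P106.Tri (ec norm_ec)
open Vale.Agent.P117 (Adm)
open Vale.Agent.P122.C2 (Z2)

/-- location of the support -/
theorem aC_loc {N : ℕ} (hN : 1 ≤ N) {β1 β2 κ : ℝ} (hC : G.Cap β1 β2 (1 / N)) (hκ : 0 < κ) (hκc : κ ≤ 1 / 8)
    (hκN : κ ≤ 1/64 / (N:ℝ) ^ 2) {g : G.E3 → ℂ} {ζ : G.E4} (h : aC H0 1 N β1 β2 κ g ζ ≠ 0) :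
    (1 ≤ ζ 0 ∧ ζ 0 ≤ 1 + 1) ∧ (β1 < ζ 1 / ζ 0 ∧ ζ 1 / ζ 0 < β1 + 1 / N) ∧
      (β2 < ζ 2 / ζ 0 ∧ ζ 2 / ζ 0 < β2 + 1 / N) ∧ |ζ 3 - (ζ 1 ^ 2 + ζ 2 ^ 2) / ζ 0| ≤ ((N:ℝ) ^ 2)⁻¹ := by
  have hN1 : (1:ℝ) ≤ N := by exact_mod_cast hN
  obtain ⟨ξ, hξ, hd⟩ := aP_supp hκ h
  obtain ⟨m1, m2, m3, m4, m5⟩ := mu_cone' H0_ok2.ok.bd (r1_chi0 one_pos le_rfl) (vc_capc hC.pos hC.l1 hC.r1) (vc_capc hC.pos hC.l2 hC.r2)
    (left_ne_zero_of_mul hξ)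
  obtain ⟨p1, p2⟩ := chi0_supp one_pos m3
  obtain ⟨q1, q2⟩ := capc_supp hC.pos m4
  obtain ⟨r1, r2⟩ := capc_supp hC.pos m5
  obtain ⟨G0, G1, G2, G3⟩ := Ga_cone (b1 := 0) (b2 := 0) m1 m2
  have hd' : ∀ i, |ζ i - G.Ga H0 0 0 ξ i| ≤ κ := by
    intro i
    have := abs_coord_le (ζ - G.Ga H0 0 0 ξ) i
    rw [PiLp.sub_apply] at this
    linarith
  exact loc_aux (g0 := G.Ga H0 0 0 ξ 0) (g1 := G.Ga H0 0 0 ξ 1) (g2 := G.Ga H0 0 0 ξ 2)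
    (g3 := G.Ga H0 0 0 ξ 3) hN1 hκ hκc hκN le_rfl (by rw [G0]; exact p1) (by rw [G0]; exact p2) G3 hC.l1 hC.r1 hC.l2 hC.r2
    (by rw [G1]; linarith) (by rw [G1]; linarith) (by rw [G2]; linarith) (by rw [G2]; linarith) (hd' 0) (hd' 1) (hd' 2) (hd' 3)

theorem grd_cell {N : ℕ} {k : ℤ × ℤ} (h : k ∈ grd N) : (0 ≤ k.1 ∧ k.1 < N) ∧ 0 ≤ k.2 ∧ k.2 < N := by
  have hk := Finset.mem_product.1 h
  rw [Finset.mem_Ico, Finset.mem_Ico] at hk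
  exact hk

section
variable {K n N : ℕ} (hNe : N = 2 ^ (K * n)) (hN : 32 ≤ N) {r1 : ℝ} (hr : 0 < r1) (hr1 : r1 ≤ 1 / 64) {h0 : G.E3 → ℂ}
  (hh : Adm volume h0)
include hN hr hr1

theorem kap_bd : 0 < r1 / (N:ℝ) ^ 2 ∧ r1 / (N:ℝ) ^ 2 ≤ 1 / 8 ∧ r1 / (N:ℝ) ^ 2 ≤ 1/64 / (N:ℝ) ^ 2 := by
  have hN1 : (1:ℝ) ≤ N := by
    have : 1 ≤ N := by omega
    exact_mod_cast this
  have hN2 : (1:ℝ) ≤ (N:ℝ) ^ 2 := one_le_pow₀ hN1
  refine ⟨by positivity, ?_, ?_⟩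
  · rw [div_le_iff₀ (by positivity)]; linarith
  · gcongr

include hNe hh

theorem pc_loc {D j : ℝ} {o : Fin 2 × Fin 2} {θ : Z2} {ξ : AN.E4} (h : pc N D j r1 h0 o θ ξ ≠ 0) :
    (∀ k, 0 ≤ θ k ∧ θ k < 2 ^ (K * n)) ∧ (1 ≤ ξ 3 ∧ ξ 3 ≤ 2) ∧ psi (D * (ξ 3 - 1) - j) ≠ 0 ∧
    |ξ 0 / ξ 3 + θ 0 / 2 ^ (K * n)| ≤ 3 / 2 ^ (K * n) ∧ |ξ 1 / ξ 3 + θ 1 / 2 ^ (K * n)| ≤ 3 / 2 ^ (K * n) ∧
    |ξ 2 - (ξ 0 ^ 2 + ξ 1 ^ 2) / (2 * ξ 3)| ≤ 3 / 2 ^ (2 * K * n) := by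
  have hN1 : 1 ≤ N := by omega
  have hN0 : (0:ℝ) < N := by exact_mod_cast hN1
  have hNr : (N:ℝ) = 2 ^ (K * n) := by rw [hNe]; push_cast; rfl
  obtain ⟨k1, k2, k3⟩ := kap_bd hN hr hr1
  by_cases hk : kk θ ∈ sK psv psv N
  swap
  · rw [pc_neg hk] at h; exact absurd rfl h
  rw [pc_pos hk] at h
  obtain ⟨hC, -, -⟩ := cap_sK vcut_psv vcut_psv hN hk o.1 o.2
  unfold bt gN at h
  have hpsi := left_ne_zero_of_mul h
  have haC := right_ne_zero_of_mul (right_ne_zero_of_mul h)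
  obtain ⟨l0, l1, l2, l3⟩ := aC_loc hN1 hC k1 k2 k3 haC
  rw [fr0, fr1] at l1
  rw [fr0, fr2] at l2
  rw [fr0] at l0
  rw [fr0, fr1, fr2, fr3] at l3
  have hi : 0 < 1 / (N:ℝ) := by positivity
  have hx : 0 < ξ 3 := by linarith [l0.1]
  have hf1 := abs_le.1 (sf_le hN1 o.1)
  have hf2 := abs_le.1 (sf_le hN1 o.2)
  have e4 : 1/4 / (N:ℝ) = 1/4 * (1 / N) := by ring
  rw [e4] at hf1 hf2
  rw [neg_div] at l1 l2
  have c := grd_cell (sK_sub _ _ _ hk)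
  refine ⟨?_, ⟨l0.1, by linarith [l0.2]⟩, hpsi, ?_, ?_, ?_⟩
  · have e : ((N : ℕ) : ℤ) = 2 ^ (K * n) := by rw [hNe]; push_cast; rfl
    rw [e] at c
    intro k
    fin_cases k
    · exact c.1
    · exact c.2
  · rw [← hNr]
    have e : (3:ℝ) / N = 3 * (1 / N) := by ring
    rw [e, abs_le]
    have e5 : ((kk θ).1 : ℝ) / N = (θ 0 : ℝ) / N := rfl
    rw [e5] at l1
    constructor <;> linarith [l1.1, l1.2]
  · rw [← hNr]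
    have e : (3:ℝ) / N = 3 * (1 / N) := by ring
    rw [e, abs_le]
    have e5 : ((kk θ).2 : ℝ) / N = (θ 1 : ℝ) / N := rfl
    rw [e5] at l2
    constructor <;> linarith [l2.1, l2.2]
  · have e2 : (2:ℝ) ^ (2 * K * n) = (N:ℝ) ^ 2 := by rw [hNr, ← pow_mul]; congr 1; ring
    rw [e2]
    have e3 : ξ 2 - (ξ 0 ^ 2 + ξ 1 ^ 2) / (2 * ξ 3) = (2 * ξ 2 - ((-ξ 0) ^ 2 + (-ξ 1) ^ 2) / ξ 3) / 2 := by
      field_simp
    rw [e3, abs_div, abs_two]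
    have e6 : (3:ℝ) / (N:ℝ) ^ 2 = 3 * ((N:ℝ) ^ 2)⁻¹ := by rw [div_eq_mul_inv]
    rw [e6]
    have : 0 < ((N:ℝ) ^ 2)⁻¹ := by positivity
    linarith

theorem dat_pc {κ : ℕ} {j : ℤ} (hj : 0 ≤ j) (hj2 : j ≤ 2 ^ κ) (o : Fin 2 × Fin 2) :
    AN.Dat 3 κ K n (1 + j / 2 ^ κ) (pc N (2 ^ κ) (j - 1/2) r1 h0 o) := by
  have hD : (0:ℝ) < 2 ^ κ := by positivity
  have j0 : (0:ℝ) ≤ j := by exact_mod_cast hj
  have j1 : (j:ℝ) ≤ 2 ^ κ := by exact_mod_cast hj2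
  refine ⟨⟨?_, ?_⟩, ?_, fun θ ξ h => (pc_loc hNe hN hr hr1 hh h).1, ?_, fun θ ξ h => (pc_loc hNe hN hr hr1 hh h).2.2.2.1,
    fun θ ξ h => (pc_loc hNe hN hr hr1 hh h).2.2.2.2.1, fun θ ξ h => (pc_loc hNe hN hr hr1 hh h).2.2.2.2.2⟩
  · have : 0 ≤ (j:ℝ) / 2 ^ κ := by positivity
    linarith
  · have : (j:ℝ) / 2 ^ κ ≤ 1 := by rw [div_le_one hD]; exact j1
    linarith
  · intro θ
    by_cases hk : kk θ ∈ sK psv psv N
    · rw [pc_pos hk]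
      obtain ⟨hC, -, -⟩ := cap_sK vcut_psv vcut_psv hN hk o.1 o.2
      exact bt_int _ _ (gN_int (aC_int one_pos le_rfl hC (kap_bd hN hr hr1).1 (G.mop_adm (G.sm_MP H0_ok2 one_pos le_rfl hC) hh)))
    · rw [pc_neg hk]
      exact integrable_zero _ _ _
  · intro θ ξ h
    obtain ⟨-, ⟨a1, a2⟩, a3, -⟩ := pc_loc hNe hN hr hr1 hh h
    refine ⟨by linarith, ?_⟩
    obtain ⟨b1, b2⟩ := psi_supp a3
    have e : ξ 3 - (1 + (j:ℝ) / 2 ^ κ) = (2 ^ κ * (ξ 3 - 1) - j) / 2 ^ κ := by field_simp; ring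
    rw [e, abs_div, abs_of_pos hD]
    apply div_le_div_of_nonneg_right _ hD.le
    rw [abs_le]
    constructor <;> linarith

end

theorem inv_fsum {ι : Type} (s : Finset ι) {f : ι → AN.E4 → ℂ} (hf : ∀ i ∈ s, Integrable (f i)) (z : AN.E4) :
    𝓕⁻ (fun ξ => ∑ i ∈ s, f i ξ) z = ∑ i ∈ s, 𝓕⁻ (f i) z := by
  rw [inv_eq]
  simp_rw [inv_eq, Finset.mul_sum]
  rw [integral_finset_sum]
  intro i hi
  apply (hf i hi).bdd_mul (c := 1)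
  · exact (Tri.continuous_ec.comp (by fun_prop)).aestronglyMeasurable
  · exact Filter.Eventually.of_forall fun ξ => (norm_ec _).le

section
variable {K n N : ℕ} (hNe : N = 2 ^ (K * n)) (hN : 32 ≤ N) {r1 : ℝ} (hr : 0 < r1) (hr1 : r1 ≤ 1 / 64) {h0 : G.E3 → ℂ}
  (hh : Adm volume h0)
include hNe hN hr hr1 hh

/-- the pieces sum up to the solution -/
theorem sum_pc (κ : ℕ) (o : Fin 2 × Fin 2) (z : G.E4) :
    ∑ j ∈ Finset.Icc (0:ℤ) (2 ^ κ), AN.pie K n (pc N (2 ^ κ) (j - 1/2) r1 h0 o) 0 0 (mat4 nwM z) =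
      2 * Psi ((r1 / (N:ℝ) ^ 2) • z) * ∑ k ∈ sK psv psv N, H0.U (Mc H0 1 N o k) (gp H0 1 N h0 o k) (H0.tm z) (sp3 z) := by
  classical
  have hN1 : 1 ≤ N := by omega
  obtain ⟨k1, k2, k3⟩ := kap_bd hN hr hr1
  unfold AN.pie
  rw [Finset.sum_comm]
  set a : Z2 → G.E4 → ℂ := fun θ => aC H0 1 N ((kk θ).1 / N + sf N o.1) ((kk θ).2 / N + sf N o.2) (r1 / (N:ℝ) ^ 2)
    (gp H0 1 N h0 o (kk θ)) with ha
  have hterm : ∀ θ ∈ AN.desc K n 0 0, ∑ j ∈ Finset.Icc (0:ℤ) (2 ^ κ), 𝓕⁻ (pc N (2 ^ κ) (j - 1/2) r1 h0 o θ) (mat4 nwM z) =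
      if kk θ ∈ sK psv psv N then 2 * Psi ((r1 / (N:ℝ) ^ 2) • z) * H0.U (Mc H0 1 N o (kk θ)) (gp H0 1 N h0 o (kk θ)) (H0.tm z) (sp3 z)
        else 0 := by
    intro θ _
    by_cases hk : kk θ ∈ sK psv psv N
    · rw [if_pos hk]
      obtain ⟨hC, -, -⟩ := cap_sK vcut_psv vcut_psv hN hk o.1 o.2
      have hgp : Adm volume (gp H0 1 N h0 o (kk θ)) := G.mop_adm (G.sm_MP H0_ok2 one_pos le_rfl hC) hh
      have hai : Integrable (a θ) := aC_int one_pos le_rfl hC k1 hgp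
      have hpc : ∀ j : ℤ, pc N (2 ^ κ) (j - 1/2) r1 h0 o θ = bt (2 ^ κ) (j - 1/2) (gN (a θ)) := fun j => pc_pos hk
      simp_rw [hpc]
      rw [← inv_fsum _ (fun j _ => bt_int _ _ (gN_int hai))]
      have hs : (fun ξ : AN.E4 => ∑ j ∈ Finset.Icc (0:ℤ) (2 ^ κ), bt (2 ^ κ) (j - 1/2) (gN (a θ)) ξ) = gN (a θ) := by
        ext ξ
        unfold bt
        rw [← Finset.sum_mul]
        by_cases hz : gN (a θ) ξ = 0
        · rw [hz, mul_zero]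
        · have hz2 : a θ (mat4 nwM.transpose ξ) ≠ 0 := right_ne_zero_of_mul hz
          obtain ⟨⟨l0, l1⟩, -⟩ := aC_loc hN1 hC k1 k2 k3 hz2
          rw [fr0] at l0 l1
          have hD : (0:ℝ) < 2 ^ κ := by positivity
          have e : ∀ j : ℤ, psi (2 ^ κ * (ξ 3 - 1) - ((j:ℝ) - 1/2)) = psi ((2 ^ κ * (ξ 3 - 1) + 1/2) - j) := by
            intro j; congr 1; ring
          simp_rw [e]
          rw [psi_sum_Icc, one_mul]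
          · push_cast
            nlinarith
          · push_cast
            nlinarith
      rw [hs, inv_gN]
      have hiv := inv_aP H0 0 0 k1 (sm_mu H0_ok2.ok (r1_chi0 one_pos le_rfl).toRcut (vc_capc hC.pos hC.l1 hC.r1)
        (vc_capc hC.pos hC.l2 hC.r2)).int hgp.int z
      rw [shT_zero] at hiv
      exact hiv
    · rw [if_neg hk]
      refine Finset.sum_eq_zero fun j _ => ?_
      rw [pc_neg hk, inv_eq]
      simp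
  rw [Finset.sum_congr rfl hterm, ← Finset.sum_filter]
  rw [← Finset.mul_sum]
  congr 1
  rw [← Finset.sum_image (f := fun k => H0.U (Mc H0 1 N o k) (gp H0 1 N h0 o k) (H0.tm z) (sp3 z)) (g := kk) (fun a _ b _ h => kk_inj h)]
  congr 1
  ext k
  rw [Finset.mem_image]
  constructor
  · rintro ⟨θ, hθ, rfl⟩
    exact (Finset.mem_filter.1 hθ).2
  · intro hk
    refine ⟨![k.1, k.2], Finset.mem_filter.2 ⟨?_, hk⟩, rfl⟩
    unfold AN.desc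
    rw [Fintype.mem_piFinset]
    have c := grd_cell (sK_sub _ _ _ hk)
    have e : ((N : ℕ) : ℤ) = 2 ^ (K * n) := by rw [hNe]; push_cast; rfl
    rw [e] at c
    intro i
    rw [Finset.mem_Ico]
    fin_cases i
    · simpa using c.1
    · simpa using c.2

end

end Vale.Agent.P106.W301
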