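import Vale.Agent.P106.W301.Crd
import Vale.Agent.P106.G.Caps

/-! # P106 / W2 : radial truncation (helper301) -/

open MeasureTheory Complex Set
open scoped ENNReal NNReal FourierTransform SchwartzMap ContDiff

set_option linter.all false

namespace Vale.Agent.P106.W301

open Vale.Agent.P106.G (psi contDiff_psi psi_supp inv_eq inner4 cs_w continuous_inv fj measurable_fj lint_fj)
open Vale.Agent.P106.Tri (ec norm_ec enorm_ec ec_add continuous_ec)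

theorem cs_psi : HasCompactSupport psi := by
  apply HasCompactSupport.intro (K := Icc (-1/8 : ℝ) (9/8)) isCompact_Icc
  intro t ht
  by_contra h
  exact ht ⟨(psi_supp h).1, (psi_supp h).2⟩

noncomputable def psS : 𝓢(ℝ, ℂ) := cs_psi.toSchwartzMap contDiff_psi

/-- kernel of the radial cut-off -/
noncomputable def kp : 𝓢(ℝ, ℂ) := 𝓕⁻ psS

theorem psi_ft (t : ℝ) : psi t = ∫ s : ℝ, ec (-(s * t)) * kp s := by
  have h : 𝓕 (kp : ℝ → ℂ) t = psi t := by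
    have : 𝓕 kp = psS := by unfold kp; simp
    rw [← SchwartzMap.fourier_coe, this]
    rfl
  rw [← h, Real.fourier_real_eq_integral_exp_smul]
  congr 1
  ext s
  unfold ec
  rw [smul_eq_mul]
  congr 3
  ring_nf

theorem kp_bd (m : ℕ) : ∃ C : ℝ, 0 ≤ C ∧ ∀ s : ℝ, (1 + |s|) ^ m * ‖kp s‖ ≤ C := by
  obtain ⟨C0, h0⟩ := kp.decay 0 0
  obtain ⟨C2, h2⟩ := kp.decay m 0
  refine ⟨2 ^ m * (C0 + C2), mul_nonneg (by positivity) (add_nonneg h0.1.le h2.1.le), fun s => ?_⟩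
  have a0 := h0.2 s
  have a2 := h2.2 s
  simp only [pow_zero, one_mul, norm_iteratedFDeriv_zero, Real.norm_eq_abs] at a0 a2
  have h3 : (1 + |s|) ^ m ≤ 2 ^ m * (1 + |s| ^ m) := by
    have hs := abs_nonneg s
    rcases le_total |s| 1 with h | h
    · calc (1 + |s|) ^ m ≤ 2 ^ m := pow_le_pow_left₀ (by positivity) (by linarith) m
        _ ≤ 2 ^ m * (1 + |s| ^ m) := le_mul_of_one_le_right (by positivity) (by have := pow_nonneg hs m; linarith)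
    · calc (1 + |s|) ^ m ≤ (2 * |s|) ^ m := pow_le_pow_left₀ (by positivity) (by linarith) m
        _ = 2 ^ m * |s| ^ m := mul_pow _ _ _
        _ ≤ 2 ^ m * (1 + |s| ^ m) := by gcongr; linarith
  have hk := norm_nonneg (kp s)
  calc (1 + |s|) ^ m * ‖kp s‖ ≤ 2 ^ m * (1 + |s| ^ m) * ‖kp s‖ := by gcongr
    _ = 2 ^ m * (‖kp s‖ + |s| ^ m * ‖kp s‖) := by ring
    _ ≤ _ := by gcongr

theorem kp_L1 (M : ℕ) : ∃ C : ℝ, 0 ≤ C ∧ ∫⁻ s : ℝ, ‖kp s‖ₑ * ENNReal.ofReal ((1 + |s|) ^ M) ≤ ENNReal.ofReal C := by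
  obtain ⟨C, hC, h⟩ := kp_bd (M + 2)
  set c := (∫⁻ s, fj 1 s).toReal with hc
  have hcf : ∫⁻ s, fj 1 s = ENNReal.ofReal c := (ENNReal.ofReal_toReal (lint_fj le_rfl)).symm
  have hc0 : 0 ≤ c := ENNReal.toReal_nonneg
  refine ⟨C * c, by positivity, ?_⟩
  rw [ENNReal.ofReal_mul hC, ← hcf, ← lintegral_const_mul' _ _ ENNReal.ofReal_ne_top]
  refine lintegral_mono fun s => ?_
  unfold fj
  rw [← ofReal_norm, ← ENNReal.ofReal_mul (norm_nonneg _), ← ENNReal.ofReal_mul hC]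
  apply ENNReal.ofReal_le_ofReal
  rw [div_one, ← div_eq_mul_inv, le_div_iff₀ (by positivity)]
  calc ‖kp s‖ * (1 + |s|) ^ M * (1 + |s|) ^ 2 = (1 + |s|) ^ (M + 2) * ‖kp s‖ := by ring
    _ ≤ C := h s

/-- translation in the variable `u` -/
noncomputable def uv (s : ℝ) : AN.E4 := !₂[0, 0, 0, s]

theorem continuous_uv : Continuous uv :=
  (by fun_prop : Continuous fun s : ℝ => WithLp.toLp 2 (![0, 0, 0, s] : Fin 4 → ℝ))

theorem inner_uv (ξ : AN.E4) (s : ℝ) : inner ℝ ξ (uv s) = ξ 3 * s := by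
  rw [inner4]; simp [uv]

/-- truncated amplitude -/
noncomputable def bt (D j : ℝ) (g : AN.E4 → ℂ) (ξ : AN.E4) : ℂ := psi (D * (ξ 3 - 1) - j) * g ξ

theorem norm_psi_le : ∃ C : ℝ, 0 ≤ C ∧ ∀ t, ‖psi t‖ ≤ C := by
  obtain ⟨C, hC⟩ := psS.decay 0 0
  refine ⟨C, hC.1.le, fun t => ?_⟩
  have := hC.2 t
  simp only [pow_zero, one_mul, norm_iteratedFDeriv_zero] at this
  exact this

theorem bt_int (D j : ℝ) {g : AN.E4 → ℂ} (hg : Integrable g) : Integrable (bt D j g) := by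
  obtain ⟨C, hC, h⟩ := norm_psi_le
  unfold bt
  apply hg.bdd_mul (c := C)
  · have hc := contDiff_psi.continuous
    exact (hc.comp (by fun_prop)).aestronglyMeasurable
  · exact Filter.Eventually.of_forall fun ξ => h _

theorem inv_bt (D j : ℝ) {g : AN.E4 → ℂ} (hg : Integrable g) (z : AN.E4) :
    𝓕⁻ (bt D j g) z = ∫ s : ℝ, (ec (s * (D + j)) * kp s) * 𝓕⁻ g (z - uv (s * D)) := by
  rw [inv_eq]
  have h1 : ∀ ξ : AN.E4, ec (inner ℝ ξ z) * bt D j g ξ = ∫ s : ℝ, ec (inner ℝ ξ z) * (ec (-(s * (D * (ξ 3 - 1) - j))) * kp s) * g ξ := by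
    intro ξ
    unfold bt
    rw [psi_ft, integral_mul_const, integral_const_mul, mul_assoc]
  simp_rw [h1]
  rw [integral_integral_swap]
  · congr 1
    ext s
    rw [inv_eq, ← integral_const_mul]
    congr 1
    ext ξ
    rw [inner_sub_right, inner_uv]
    have e : ec (inner ℝ ξ z) * ec (-(s * (D * (ξ 3 - 1) - j))) = ec (s * (D + j)) * ec (inner ℝ ξ z - ξ 3 * (s * D)) := by
      rw [← ec_add, ← ec_add]
      congr 1
      ring
    linear_combination (kp s * g ξ) * e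
  · have h2 : Integrable (fun q : AN.E4 × ℝ => g q.1 * kp q.2) ((volume : Measure AN.E4).prod volume) := hg.mul_prod kp.integrable
    have e : (Function.uncurry fun (ξ : AN.E4) (s : ℝ) => ec (inner ℝ ξ z) * (ec (-(s * (D * (ξ 3 - 1) - j))) * kp s) * g ξ) =
        fun q : AN.E4 × ℝ => (ec (inner ℝ q.1 z) * ec (-(q.2 * (D * (q.1 3 - 1) - j)))) * (g q.1 * kp q.2) := by
      ext q
      simp only [Function.uncurry]
      ring
    rw [e]
    apply h2.bdd_mul (c := 1)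
    · exact ((continuous_ec.comp (by fun_prop)).mul (continuous_ec.comp (by fun_prop))).aestronglyMeasurable
    · exact Filter.Eventually.of_forall fun q => by rw [norm_mul, norm_ec, norm_ec, mul_one]

/-- **radial truncation** costs nothing in weighted norms -/
theorem trunc (M : ℕ) : ∃ C : ℝ, 0 ≤ C ∧ ∀ (D j : ℝ) (g : AN.E4 → ℂ) (W : AN.E4 → ℝ≥0∞), Integrable g → Measurable W → (∀ z, W z ≠ ⊤) →
    (∀ z s, W (z + uv (s * D)) ≤ ENNReal.ofReal ((1 + |s|) ^ M) * W z) →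
    ∫⁻ z, ‖𝓕⁻ (bt D j g) z‖ₑ ^ 2 * W z ≤ ENNReal.ofReal C * ∫⁻ z, ‖𝓕⁻ g z‖ₑ ^ 2 * W z := by
  obtain ⟨C0, hC0, h0⟩ := kp_L1 0
  obtain ⟨C1, hC1, h1⟩ := kp_L1 M
  have h0' : ∫⁻ s : ℝ, ‖kp s‖ₑ ≤ ENNReal.ofReal C0 := by simpa using h0
  refine ⟨C0 * C1, by positivity, ?_⟩
  intro D j g W hg hW hWt hWs
  have hgc := continuous_inv hg
  have hkc : Measurable (fun s : ℝ => ‖kp s‖ₑ) := kp.continuous.measurable.enorm
  have hgm : Measurable (fun q : AN.E4 × ℝ => ‖𝓕⁻ g (q.1 - uv (q.2 * D))‖ₑ) :=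
    (hgc.comp (continuous_fst.sub (continuous_uv.comp (by fun_prop)))).measurable.enorm
  have hpw : ∀ z, ‖𝓕⁻ (bt D j g) z‖ₑ ^ 2 ≤ ENNReal.ofReal C0 * ∫⁻ s : ℝ, ‖kp s‖ₑ * ‖𝓕⁻ g (z - uv (s * D))‖ₑ ^ 2 := by
    intro z
    rw [inv_bt D j hg]
    have m1 : Measurable (fun s : ℝ => ‖𝓕⁻ g (z - uv (s * D))‖ₑ) :=
      (hgc.comp (continuous_const.sub (continuous_uv.comp (by fun_prop)))).measurable.enorm
    calc _ ≤ (∫⁻ s : ℝ, ‖(ec (s * (D + j)) * kp s) * 𝓕⁻ g (z - uv (s * D))‖ₑ) ^ 2 := by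
          gcongr
          exact enorm_integral_le_lintegral_enorm _
      _ = (∫⁻ s : ℝ, ‖kp s‖ₑ * ‖𝓕⁻ g (z - uv (s * D))‖ₑ) ^ 2 := by
          simp_rw [enorm_mul, enorm_ec, one_mul]
      _ ≤ (∫⁻ s : ℝ, ‖kp s‖ₑ) * ∫⁻ s : ℝ, ‖kp s‖ₑ * ‖𝓕⁻ g (z - uv (s * D))‖ₑ ^ 2 := cs_w hkc.aemeasurable m1.aemeasurable
      _ ≤ _ := by gcongr
  calc _ ≤ ∫⁻ z, (ENNReal.ofReal C0 * ∫⁻ s : ℝ, ‖kp s‖ₑ * ‖𝓕⁻ g (z - uv (s * D))‖ₑ ^ 2) * W z := by
        refine lintegral_mono fun z => ?_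
        exact mul_le_mul' (hpw z) le_rfl
    _ = ENNReal.ofReal C0 * ∫⁻ z, ∫⁻ s : ℝ, ‖kp s‖ₑ * ‖𝓕⁻ g (z - uv (s * D))‖ₑ ^ 2 * W z := by
        rw [← lintegral_const_mul' _ _ ENNReal.ofReal_ne_top]
        refine lintegral_congr fun z => ?_
        rw [lintegral_mul_const' _ _ (hWt z), mul_assoc]
    _ = ENNReal.ofReal C0 * ∫⁻ s : ℝ, ∫⁻ z, ‖kp s‖ₑ * ‖𝓕⁻ g (z - uv (s * D))‖ₑ ^ 2 * W z := by
        rw [lintegral_lintegral_swap]
        exact (((hkc.comp measurable_snd).mul (hgm.pow_const 2)).mul (hW.comp measurable_fst)).aemeasurable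
    _ ≤ ENNReal.ofReal C0 * ∫⁻ s : ℝ, (‖kp s‖ₑ * ENNReal.ofReal ((1 + |s|) ^ M)) * ∫⁻ z, ‖𝓕⁻ g z‖ₑ ^ 2 * W z := by
        gcongr with s
        have e1 : ∀ z, ‖kp s‖ₑ * ‖𝓕⁻ g (z - uv (s * D))‖ₑ ^ 2 * W z =
            ‖kp s‖ₑ * (‖𝓕⁻ g (z - uv (s * D))‖ₑ ^ 2 * W (z - uv (s * D) + uv (s * D))) := by
          intro z; rw [sub_add_cancel, mul_assoc]
        simp_rw [e1]
        rw [lintegral_const_mul' _ _ (by simp), mul_assoc]
        refine mul_le_mul' le_rfl ?_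
        rw [lintegral_sub_right_eq_self (fun z => ‖𝓕⁻ g z‖ₑ ^ 2 * W (z + uv (s * D))) (uv (s * D)),
          ← lintegral_const_mul' _ _ ENNReal.ofReal_ne_top]
        refine lintegral_mono fun z => ?_
        calc ‖𝓕⁻ g z‖ₑ ^ 2 * W (z + uv (s * D)) ≤ ‖𝓕⁻ g z‖ₑ ^ 2 * (ENNReal.ofReal ((1 + |s|) ^ M) * W z) := mul_le_mul' le_rfl (hWs z s)
          _ = _ := by ring
    _ ≤ _ := by
        have m2 : Measurable (fun s : ℝ => ‖kp s‖ₑ * ENNReal.ofReal ((1 + |s|) ^ M)) := by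
          refine hkc.mul ?_
          exact (by fun_prop : Measurable fun s : ℝ => (1 + |s|) ^ M).ennreal_ofReal
        rw [lintegral_mul_const _ m2, ← mul_assoc, ENNReal.ofReal_mul hC0]
        gcongr

end Vale.Agent.P106.W301
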