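import Vale.Agent.P106.G.KinE

/-! # P106 / W2 : transport of weighted energies to the data hyperplane (helper301) -/

open MeasureTheory Complex Set Filter
open scoped ENNReal NNReal ContDiff FourierTransform Topology SchwartzMap

set_option linter.all false

namespace Vale.Agent.P106.W301

open Vale.Agent.P106.G
open Vale.Agent.P117 (Adm contDiff_st cv cv_schwartz_eq)
open Tri (ec norm_ec enorm_ec ec_add ec_zero continuous_ec)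

theorem inner_J {B r1 : ℝ} (hB : 1 ≤ B) (hr : 0 < r1) : ∃ C : ℝ, 0 ≤ C ∧ ∀ (N : ℕ) (β1 β2 R : ℝ) (p : G.E4), 1 ≤ N → 0 < R →
    R ≤ B * (N:ℝ) ^ 2 →
    ∫⁻ z : G.E4, ENNReal.ofReal (((1 + ‖Pb β1 β2 (1 / N) (z - p)‖) ^ 6)⁻¹ * ((1 + ‖(r1 / R) • z‖) ^ 2)⁻¹) ≤
      ENNReal.ofReal (C * (N:ℝ) ^ 4) := by
  set c := (∫⁻ s, fj 1 s).toReal with hc
  have hcf : ∫⁻ s, fj 1 s = ENNReal.ofReal c := (ENNReal.ofReal_toReal (lint_fj le_rfl)).symm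
  have hc0 : 0 ≤ c := ENNReal.toReal_nonneg
  refine ⟨(1 + B / r1) ^ 2 * (c * c * c * c), by positivity, ?_⟩
  intro N β1 β2 R p hN hR hRN
  have hN0 : (0:ℝ) < N := by exact_mod_cast hN
  have hfm := measurable_fj 1
  set P0 := LT N (0, 0) (shT β1 β2 p) with hP0
  have key : ∀ z : G.E4, LT N (0, 0) (shT β1 β2 z) 0 - P0 0 = Pb β1 β2 (1 / N) (z - p) 0 ∧
      LT N (0, 0) (shT β1 β2 z) 1 - P0 1 = Pb β1 β2 (1 / N) (z - p) 1 ∧
      LT N (0, 0) (shT β1 β2 z) 2 - P0 2 = Pb β1 β2 (1 / N) (z - p) 2 ∧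
      LT N (0, 0) (shT β1 β2 z) 3 = z 3 / N ^ 2 := by
    intro z
    have e0 : LT N (0, 0) (shT β1 β2 z) - P0 = LT N (0, 0) (shT β1 β2 (z - p)) := by rw [hP0, shT_sub, LT_sub]
    have e1 := LT_shT N (0, 0) β1 β2 (z - p)
    have e2 := LT_shT N (0, 0) β1 β2 z
    simp only [Int.cast_zero, zero_div, zero_add] at e1 e2
    refine ⟨?_, ?_, ?_, ?_⟩
    · rw [← PiLp.sub_apply, e0, e1]; rfl
    · rw [← PiLp.sub_apply, e0, e1]; rfl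
    · rw [← PiLp.sub_apply, e0, e1]; rfl
    · rw [e2]; rfl
  have hpw : ∀ z : G.E4, ENNReal.ofReal (((1 + ‖Pb β1 β2 (1 / N) (z - p)‖) ^ 6)⁻¹ * ((1 + ‖(r1 / R) • z‖) ^ 2)⁻¹) ≤
      ENNReal.ofReal ((1 + B / r1) ^ 2) *
        (fj 1 (LT N (0, 0) (shT β1 β2 z) 0 - P0 0) * fj 1 (LT N (0, 0) (shT β1 β2 z) 1 - P0 1) *
         fj 1 (LT N (0, 0) (shT β1 β2 z) 2 - P0 2) * fj 1 (LT N (0, 0) (shT β1 β2 z) 3 - 0)) := by
    intro z
    obtain ⟨k0, k1, k2, k3⟩ := key z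
    rw [k0, k1, k2, k3, sub_zero]
    set X := ‖(r1 / R) • z‖ with hX
    have hX0 : 0 ≤ X := norm_nonneg _
    set T := B / r1 * X with hT
    have hT0 : 0 ≤ T := by positivity
    have h3 : |z 3 / (N:ℝ) ^ 2| ≤ T := by
      have h4 := abs_coord_le z 3
      rw [abs_div, abs_of_pos (by positivity : (0:ℝ) < (N:ℝ) ^ 2), div_le_iff₀ (by positivity)]
      have h5 : X = r1 / R * ‖z‖ := by rw [hX, norm_smul, Real.norm_of_nonneg (by positivity)]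
      rw [hT, h5]
      have h6 : B / r1 * (r1 / R * ‖z‖) * (N:ℝ) ^ 2 = (B * (N:ℝ) ^ 2 / R) * ‖z‖ := by field_simp
      rw [h6]
      have h7 : 1 ≤ B * (N:ℝ) ^ 2 / R := by rw [le_div_iff₀ hR]; linarith
      nlinarith [norm_nonneg z]
    refine le_trans ?_ (mul_le_mul' le_rfl (prof_le (Pb β1 β2 (1 / N) (z - p)) (z 3 / (N:ℝ) ^ 2) T h3))
    rw [← ENNReal.ofReal_mul (by positivity)]
    apply ENNReal.ofReal_le_ofReal
    have h8 : 1 + T ≤ (1 + B / r1) * (1 + X) := by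
      have : 0 ≤ B / r1 := by positivity
      rw [hT]; nlinarith
    have h9 : (1 + T) ^ 2 ≤ (1 + B / r1) ^ 2 * (1 + X) ^ 2 := by
      rw [← mul_pow]; exact pow_le_pow_left₀ (by positivity) h8 2
    have h10 : ((1 + X) ^ 2)⁻¹ ≤ (1 + B / r1) ^ 2 * ((1 + T) ^ 2)⁻¹ := by
      rw [inv_eq_one_div, ← div_eq_mul_inv, div_le_div_iff₀ (by positivity) (by positivity)]
      linarith
    have h11 : 0 ≤ ((1 + ‖Pb β1 β2 (1 / N) (z - p)‖) ^ 6)⁻¹ := by positivity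
    calc ((1 + ‖Pb β1 β2 (1 / N) (z - p)‖) ^ 6)⁻¹ * ((1 + X) ^ 2)⁻¹ ≤
        ((1 + ‖Pb β1 β2 (1 / N) (z - p)‖) ^ 6)⁻¹ * ((1 + B / r1) ^ 2 * ((1 + T) ^ 2)⁻¹) := by gcongr
      _ = _ := by ring
  calc _ ≤ ∫⁻ z : G.E4, ENNReal.ofReal ((1 + B / r1) ^ 2) *
        (fj 1 (LT N (0, 0) (shT β1 β2 z) 0 - P0 0) * fj 1 (LT N (0, 0) (shT β1 β2 z) 1 - P0 1) *
         fj 1 (LT N (0, 0) (shT β1 β2 z) 2 - P0 2) * fj 1 (LT N (0, 0) (shT β1 β2 z) 3 - 0)) := lintegral_mono hpw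
    _ = ENNReal.ofReal ((1 + B / r1) ^ 2) * (ENNReal.ofReal ((N:ℝ) ^ 4) *
        ((∫⁻ s, fj 1 s) * (∫⁻ s, fj 1 s) * (∫⁻ s, fj 1 s) * (∫⁻ s, fj 1 s))) := by
        rw [lintegral_const_mul' _ _ ENNReal.ofReal_ne_top,
          lint_shT β1 β2 (fun w => fj 1 (LT N (0, 0) w 0 - P0 0) * fj 1 (LT N (0, 0) w 1 - P0 1) *
         fj 1 (LT N (0, 0) w 2 - P0 2) * fj 1 (LT N (0, 0) w 3 - 0)),
          lint_LT hN (0, 0) (fun X => fj 1 (X 0 - P0 0) * fj 1 (X 1 - P0 1) *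
         fj 1 (X 2 - P0 2) * fj 1 (X 3 - 0))]
        congr 2
        rw [prod4 (f0 := fun s => fj 1 (s - P0 0)) (f1 := fun s => fj 1 (s - P0 1))
          (f2 := fun s => fj 1 (s - P0 2)) (f3 := fun s => fj 1 (s - 0))
          (hfm.comp (by fun_prop)) (hfm.comp (by fun_prop)) (hfm.comp (by fun_prop)) (hfm.comp (by fun_prop)),
          lintegral_sub_right_eq_self (fun s => fj 1 s), lintegral_sub_right_eq_self (fun s => fj 1 s),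
          lintegral_sub_right_eq_self (fun s => fj 1 s), lintegral_sub_right_eq_self (fun s => fj 1 s)]
    _ = _ := by
        rw [hcf, ← ENNReal.ofReal_mul hc0, ← ENNReal.ofReal_mul (by positivity), ← ENNReal.ofReal_mul (by positivity),
          ← ENNReal.ofReal_mul (by positivity), ← ENNReal.ofReal_mul (by positivity)]
        congr 1
        ring

/-- amplitude of the cap piece `g`, cap `β` of side `1/N` -/
noncomputable def aC (H : Hyp) (c : ℝ) (N : ℕ) (β1 β2 κ : ℝ) (g : G.E3 → ℂ) : G.E4 → ℂ :=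
  aP H 0 0 κ (fun ξ => H.mu (chi0 c) (capc β1 (1 / N)) (capc β2 (1 / N)) ξ * 𝓕 g ξ)

/-- **transport** -/
theorem transport {c : ℝ} (hc : 0 < c) (hc1 : c ≤ 1) (M : ℕ) {B r1 A : ℝ} (hB : 1 ≤ B) (hr : 0 < r1) (hA : 0 ≤ A) :
    ∃ C : ℝ, 0 ≤ C ∧ ∀ (H : Hyp) (N : ℕ) (β1 β2 R : ℝ) (g : G.E3 → ℂ) (W : G.E4 → ℝ≥0∞), H.ok2 → 1 ≤ N →
    Cap β1 β2 (1 / N) → 0 < R → R ≤ B * (N:ℝ) ^ 2 → Adm volume g → Measurable W → (∀ z, W z ≠ ⊤) →
    (∀ z y', W z ≤ ENNReal.ofReal ((A * ((1 + ‖Pb β1 β2 (1 / N) (z - H.pt y')‖) * (1 + |(1 / (N:ℝ)) ^ 2 * H.tm z|))) ^ M) *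
      W (H.pt y')) →
    ∫⁻ z, ‖𝓕⁻ (aC H c N β1 β2 (r1 / R) g) z‖ₑ ^ 2 * W z ≤
      ENNReal.ofReal (C * (N:ℝ) ^ 2) * ∫⁻ y', ‖g y'‖ₑ ^ 2 * W (H.pt y') := by
  obtain ⟨C1, hC1, hF⟩ := Fk_bd hc hc1 (M + 6)
  obtain ⟨C2, hC2, hP⟩ := Psi_decay (M + 6 + 4 + (M + 2))
  obtain ⟨C3, hC3, hI⟩ := inner_J hB hr
  set L := 1 + 4 * B / r1 with hL
  have hL0 : 0 ≤ L := by positivity
  set D := 4 * C2 ^ 2 * (C1 * L ^ (M + 6 + 4)) * (A * L) ^ M with hD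
  have hD0 : 0 ≤ D := by positivity
  refine ⟨D * C3, by positivity, ?_⟩
  intro H N β1 β2 R g W hH hN hC hR hRN hg hW hWt hWP
  have hN0 : (0:ℝ) < N := by exact_mod_cast hN
  have hb := hH.ok.bd
  have hm := cap_m hH hC
  have hκ : 0 < r1 / R := by positivity
  have hsm : Sm (H.mu (chi0 c) (capc β1 (1 / N)) (capc β2 (1 / N))) :=
    sm_mu hH.ok (r1_chi0 hc hc1).toRcut (vc_capc hC.pos hC.l1 hC.r1) (vc_capc hC.pos hC.l2 hC.r2)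
  have hpw : ∀ z : G.E4, ‖𝓕⁻ (aC H c N β1 β2 (r1 / R) g) z‖ₑ ^ 2 * W z ≤
      ENNReal.ofReal D * ∫⁻ y', ENNReal.ofReal ((1 / (N:ℝ)) ^ 2) * (ENNReal.ofReal (((1 + ‖Pb β1 β2 (1 / N) (z - H.pt y')‖) ^ 6)⁻¹ *
        ((1 + ‖(r1 / R) • z‖) ^ 2)⁻¹) * (‖g y'‖ₑ ^ 2 * W (H.pt y'))) := by
    intro z
    have hiv := inv_aP H 0 0 hκ hsm.int hg.int z
    rw [shT_zero] at hiv
    unfold aC
    rw [hiv, enorm_mul, mul_pow]
    have hF1 := hF H β1 β2 (1 / N) g (H.tm z) (sp3 z) hH hC hg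
    rw [zt_tm] at hF1
    have hX := time_abs (b1 := 0) (b2 := 0) hb (by norm_num) (by norm_num) hB hr hR hN hRN z
    rw [shT_zero] at hX
    set X := ‖(r1 / R) • z‖ with hXd
    have hX0 : 0 ≤ X := norm_nonneg _
    have hPs : ‖(2 * Psi ((r1 / R) • z) : ℂ)‖ₑ ^ 2 ≤ ENNReal.ofReal (4 * C2 ^ 2 * ((1 + X) ^ (M + 6 + 4 + (M + 2)))⁻¹) := by
      have h3 := hP ((r1 / R) • z)
      rw [← ofReal_norm, ← ENNReal.ofReal_pow (norm_nonneg _)]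
      apply ENNReal.ofReal_le_ofReal
      rw [norm_mul, mul_pow]
      simp only [Complex.norm_ofNat]
      have h4 : ((1 + X) ^ (M + 6 + 4 + (M + 2)))⁻¹ ≤ 1 := inv_le_one_of_one_le₀ (one_le_pow₀ (by linarith))
      have h5 : 0 ≤ ((1 + X) ^ (M + 6 + 4 + (M + 2)))⁻¹ := by positivity
      calc (2:ℝ) ^ 2 * ‖Psi ((r1 / R) • z)‖ ^ 2 ≤ 2 ^ 2 * (C2 * ((1 + X) ^ (M + 6 + 4 + (M + 2)))⁻¹) ^ 2 := by gcongr
        _ = 4 * C2 ^ 2 * (((1 + X) ^ (M + 6 + 4 + (M + 2)))⁻¹ * ((1 + X) ^ (M + 6 + 4 + (M + 2)))⁻¹) := by ring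
        _ ≤ 4 * C2 ^ 2 * (1 * ((1 + X) ^ (M + 6 + 4 + (M + 2)))⁻¹) := by gcongr
        _ = _ := by ring
    calc _ ≤ (ENNReal.ofReal (4 * C2 ^ 2 * ((1 + X) ^ (M + 6 + 4 + (M + 2)))⁻¹) * (ENNReal.ofReal (C1 * (1 + |(1 / (N:ℝ)) ^ 2 * H.tm z|) ^ (M + 6 + 4)) *
          ∫⁻ y', ENNReal.ofReal ((1 / (N:ℝ)) ^ 2 * ((1 + ‖Pb β1 β2 (1 / N) (z - H.pt y')‖) ^ (M + 6))⁻¹) * ‖g y'‖ₑ ^ 2)) * W z := by
          gcongr
      _ = ∫⁻ y', ENNReal.ofReal (4 * C2 ^ 2 * ((1 + X) ^ (M + 6 + 4 + (M + 2)))⁻¹) * ENNReal.ofReal (C1 * (1 + |(1 / (N:ℝ)) ^ 2 * H.tm z|) ^ (M + 6 + 4)) *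
          (ENNReal.ofReal ((1 / (N:ℝ)) ^ 2 * ((1 + ‖Pb β1 β2 (1 / N) (z - H.pt y')‖) ^ (M + 6))⁻¹) * ‖g y'‖ₑ ^ 2) * W z := by
          rw [← mul_assoc, lintegral_mul_const' _ _ (hWt z), lintegral_const_mul' _ _ (ENNReal.mul_ne_top ENNReal.ofReal_ne_top ENNReal.ofReal_ne_top)]
      _ ≤ ∫⁻ y', ENNReal.ofReal D * (ENNReal.ofReal ((1 / (N:ℝ)) ^ 2) * (ENNReal.ofReal (((1 + ‖Pb β1 β2 (1 / N) (z - H.pt y')‖) ^ 6)⁻¹ *
        ((1 + X) ^ 2)⁻¹) * (‖g y'‖ₑ ^ 2 * W (H.pt y')))) := by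
          refine lintegral_mono fun y' => ?_
          set Q := ‖Pb β1 β2 (1 / N) (z - H.pt y')‖ with hQ
          have hQ0 : 0 ≤ Q := norm_nonneg _
          set t := |(1 / (N:ℝ)) ^ 2 * H.tm z| with ht
          have ht0 : 0 ≤ t := abs_nonneg _
          calc _ ≤ ENNReal.ofReal (4 * C2 ^ 2 * ((1 + X) ^ (M + 6 + 4 + (M + 2)))⁻¹) * ENNReal.ofReal (C1 * (1 + t) ^ (M + 6 + 4)) *
                (ENNReal.ofReal ((1 / (N:ℝ)) ^ 2 * ((1 + Q) ^ (M + 6))⁻¹) * ‖g y'‖ₑ ^ 2) *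
                (ENNReal.ofReal ((A * ((1 + Q) * (1 + t))) ^ M) * W (H.pt y')) := mul_le_mul' le_rfl (hWP z y')
            _ = ENNReal.ofReal ((4 * C2 ^ 2 * ((1 + X) ^ (M + 6 + 4 + (M + 2)))⁻¹) * (C1 * (1 + t) ^ (M + 6 + 4)) *
                ((1 / (N:ℝ)) ^ 2 * ((1 + Q) ^ (M + 6))⁻¹) * (A * ((1 + Q) * (1 + t))) ^ M) * (‖g y'‖ₑ ^ 2 * W (H.pt y')) := by
                rw [ENNReal.ofReal_mul (p := (4 * C2 ^ 2 * ((1 + X) ^ (M + 6 + 4 + (M + 2)))⁻¹) * (C1 * (1 + t) ^ (M + 6 + 4)) *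
                  ((1 / (N:ℝ)) ^ 2 * ((1 + Q) ^ (M + 6))⁻¹)) (by positivity),
                  ENNReal.ofReal_mul (p := (4 * C2 ^ 2 * ((1 + X) ^ (M + 6 + 4 + (M + 2)))⁻¹) * (C1 * (1 + t) ^ (M + 6 + 4))) (by positivity),
                  ENNReal.ofReal_mul (p := 4 * C2 ^ 2 * ((1 + X) ^ (M + 6 + 4 + (M + 2)))⁻¹) (by positivity)]
                ring
            _ ≤ ENNReal.ofReal (D * ((1 / (N:ℝ)) ^ 2 * (((1 + Q) ^ 6)⁻¹ * ((1 + X) ^ 2)⁻¹))) * (‖g y'‖ₑ ^ 2 * W (H.pt y')) := by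
                refine mul_le_mul' (ENNReal.ofReal_le_ofReal ?_) le_rfl
                have j1 : (1 + t) ^ (M + 6 + 4) ≤ (L * (1 + X)) ^ (M + 6 + 4) := pow_le_pow_left₀ (by positivity) hX _
                have j2 : (A * ((1 + Q) * (1 + t))) ^ M ≤ (A * ((1 + Q) * (L * (1 + X)))) ^ M := by
                  apply pow_le_pow_left₀ (by positivity)
                  gcongr
                calc _ ≤ (4 * C2 ^ 2 * ((1 + X) ^ (M + 6 + 4 + (M + 2)))⁻¹) * (C1 * (L * (1 + X)) ^ (M + 6 + 4)) *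
                    ((1 / (N:ℝ)) ^ 2 * ((1 + Q) ^ (M + 6))⁻¹) * (A * ((1 + Q) * (L * (1 + X)))) ^ M := by gcongr
                  _ = D * ((1 / (N:ℝ)) ^ 2 * (((1 + Q) ^ 6)⁻¹ * ((1 + X) ^ 2)⁻¹)) := by
                    rw [hD]
                    have e1 : (1 + X) ^ (M + 6 + 4 + (M + 2)) = (1 + X) ^ (M + 6 + 4) * ((1 + X) ^ M * (1 + X) ^ 2) := by
                      rw [pow_add, pow_add (1 + X) M 2]
                    have e2 : (1 + Q) ^ (M + 6) = (1 + Q) ^ M * (1 + Q) ^ 6 := pow_add _ _ _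
                    rw [e1, e2, mul_pow L, mul_pow A, mul_pow (1 + Q), mul_pow L, mul_pow A]
                    have hx : 0 < 1 + X := by linarith
                    have hq : 0 < 1 + Q := by linarith
                    have x1 : ((1 + X) ^ (M + 6 + 4))⁻¹ * (1 + X) ^ (M + 6 + 4) = 1 := inv_mul_cancel₀ (by positivity)
                    have x2 : ((1 + X) ^ M)⁻¹ * (1 + X) ^ M = 1 := inv_mul_cancel₀ (by positivity)
                    have x3 : ((1 + Q) ^ M)⁻¹ * (1 + Q) ^ M = 1 := inv_mul_cancel₀ (by positivity)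
                    rw [mul_inv ((1 + X) ^ (M + 6 + 4)), mul_inv ((1 + X) ^ M), mul_inv ((1 + Q) ^ M)]
                    have n2 : (1 / (N:ℝ)) ^ 2 * 1 = (1 / (N:ℝ)) ^ 2 := mul_one _
                    calc _ = (4 * C2 ^ 2 * (C1 * L ^ (M + 6 + 4)) * (A ^ M * L ^ M)) * ((1 / (N:ℝ)) ^ 2 * (((1 + Q) ^ 6)⁻¹ * ((1 + X) ^ 2)⁻¹)) *
                          ((((1 + X) ^ (M + 6 + 4))⁻¹ * (1 + X) ^ (M + 6 + 4)) * (((1 + X) ^ M)⁻¹ * (1 + X) ^ M) * (((1 + Q) ^ M)⁻¹ * (1 + Q) ^ M)) := by ring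
                      _ = _ := by rw [x1, x2, x3]; ring
            _ = _ := by
                rw [ENNReal.ofReal_mul hD0, ENNReal.ofReal_mul (p := (1 / (N:ℝ)) ^ 2) (by positivity), mul_assoc, mul_assoc]
      _ = _ := by rw [lintegral_const_mul' _ _ ENNReal.ofReal_ne_top]
  have hPbc := continuous_Pb β1 β2 (1 / N)
  have hptc := continuous_pt H
  have hmeas : Measurable (fun q : G.E4 × G.E3 => ENNReal.ofReal ((1 / (N:ℝ)) ^ 2) * (ENNReal.ofReal (((1 + ‖Pb β1 β2 (1 / N) (q.1 - H.pt q.2)‖) ^ 6)⁻¹ *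
        ((1 + ‖(r1 / R) • q.1‖) ^ 2)⁻¹) * (‖g q.2‖ₑ ^ 2 * W (H.pt q.2)))) := by
    have a1 : Continuous (fun q : G.E4 × G.E3 => Pb β1 β2 (1 / N) (q.1 - H.pt q.2)) := hPbc.comp (continuous_fst.sub (hptc.comp continuous_snd))
    have a2 : Measurable (fun q : G.E4 × G.E3 => ENNReal.ofReal (((1 + ‖Pb β1 β2 (1 / N) (q.1 - H.pt q.2)‖) ^ 6)⁻¹ *
        ((1 + ‖(r1 / R) • q.1‖) ^ 2)⁻¹)) := by
      refine Measurable.ennreal_ofReal ?_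
      refine (((a1.norm.measurable.const_add 1).pow_const _).inv).mul ?_
      have : Continuous (fun q : G.E4 × G.E3 => ‖(r1 / R) • q.1‖) := by fun_prop
      exact ((this.measurable.const_add 1).pow_const _).inv
    have a3 : Measurable (fun q : G.E4 × G.E3 => ‖g q.2‖ₑ ^ 2) := (hg.meas.comp measurable_snd).enorm.pow_const 2
    have a4 : Measurable (fun q : G.E4 × G.E3 => W (H.pt q.2)) := hW.comp (hptc.measurable.comp measurable_snd)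
    exact (a2.mul (a3.mul a4)).const_mul _
  calc _ ≤ ∫⁻ z, ENNReal.ofReal D * ∫⁻ y', ENNReal.ofReal ((1 / (N:ℝ)) ^ 2) * (ENNReal.ofReal (((1 + ‖Pb β1 β2 (1 / N) (z - H.pt y')‖) ^ 6)⁻¹ *
        ((1 + ‖(r1 / R) • z‖) ^ 2)⁻¹) * (‖g y'‖ₑ ^ 2 * W (H.pt y'))) := lintegral_mono hpw
    _ = ENNReal.ofReal D * ∫⁻ y', ∫⁻ z, ENNReal.ofReal ((1 / (N:ℝ)) ^ 2) * (ENNReal.ofReal (((1 + ‖Pb β1 β2 (1 / N) (z - H.pt y')‖) ^ 6)⁻¹ *
        ((1 + ‖(r1 / R) • z‖) ^ 2)⁻¹) * (‖g y'‖ₑ ^ 2 * W (H.pt y'))) := by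
        rw [lintegral_const_mul' _ _ ENNReal.ofReal_ne_top, lintegral_lintegral_swap hmeas.aemeasurable]
    _ ≤ ENNReal.ofReal D * ∫⁻ y', ENNReal.ofReal (C3 * (N:ℝ) ^ 2) * (‖g y'‖ₑ ^ 2 * W (H.pt y')) := by
        gcongr with y'
        have hfin : ‖g y'‖ₑ ^ 2 * W (H.pt y') ≠ ⊤ := ENNReal.mul_ne_top (by simp) (hWt _)
        rw [lintegral_const_mul' _ _ ENNReal.ofReal_ne_top, lintegral_mul_const' _ _ hfin, ← mul_assoc]
        refine mul_le_mul' ?_ le_rfl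
        refine (mul_le_mul' le_rfl (hI N β1 β2 R (H.pt y') hN hR hRN)).trans ?_
        rw [← ENNReal.ofReal_mul (by positivity)]
        apply ENNReal.ofReal_le_ofReal
        have : (1 / (N:ℝ)) ^ 2 * (C3 * (N:ℝ) ^ 4) = C3 * (N:ℝ) ^ 2 := by field_simp
        rw [this]
    _ = _ := by
        rw [lintegral_const_mul' _ _ ENNReal.ofReal_ne_top, ← mul_assoc, ← ENNReal.ofReal_mul hD0]
        congr 2
        ring

end Vale.Agent.P106.W301
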