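import Vale.Agent.P106.W301.Plk
import Vale.Agent.P106.W301.Trc
import Vale.Agent.P106.W301.Trn
import Vale.Agent.P106.G.KinL
import Vale.Agent.P106.W840.Sum

/-! # P106 / W2 : energies of the pieces (helper301) -/

open MeasureTheory Complex Set
open scoped ENNReal NNReal FourierTransform SchwartzMap ContDiff

set_option linter.all false

namespace Vale.Agent.P106.W301

open Vale.Agent.P106.G (psv chi0 chiP capc mat4 Pb Hyp H0 H0_ok2 sf sf_le sK mem_sK sK_sub cap_sK gp Mc MP grd vcut_psv mop inv_eq continuous_inv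
  aP_integrable sm_mu r1_chi0 vc_capc mint sum_MP_L2 cap_m)
open Vale.Agent.P106.Tri (ec norm_ec)
open Vale.Agent.P117 (Adm)
open Vale.Agent.P122.C2 (Z2)

/-! ### overlap of the plates -/

theorem ovl : ∃ B : ℝ, 0 ≤ B ∧ ∀ (κ K n : ℕ) (U : Finset Pk) (θ0 : Z2) (z : G.E4),
    ∑ S ∈ U, (if S.θ = θ0 then ENNReal.ofReal (((1 + S.g0 κ K n (mat4 nwM z)) ^ 4)⁻¹) else 0) ≤ ENNReal.ofReal B := by
  obtain ⟨B, hB, h⟩ := W840.exists_sum_Z3
  refine ⟨B, hB, ?_⟩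
  intro κ K n U θ0 z
  set x := -Pb (sl K n θ0 0) (sl K n θ0 1) (1 / 2 ^ (K * n)) z 1 with hx
  set y := -Pb (sl K n θ0 0) (sl K n θ0 1) (1 / 2 ^ (K * n)) z 2 with hy
  set ζ := Pb (sl K n θ0 0) (sl K n θ0 1) (1 / 2 ^ (K * n)) z 0 / 2 ^ κ with hζ
  have e : ∀ S : Pk, S.θ = θ0 → S.g0 κ K n (mat4 nwM z) = |ζ - S.w| + |x - S.o 0| + |y - S.o 1| := by
    intro S hS
    rw [g0_nw, hS, cS0, cS1, cS2]
    have h0 : (0:ℝ) < 2 ^ κ := by positivity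
    congr 1
    · congr 1
      · rw [hζ]
        have : Pb (sl K n θ0 0) (sl K n θ0 1) (1 / 2 ^ (K * n)) z 0 / 2 ^ κ - (S.w : ℝ) =
          (Pb (sl K n θ0 0) (sl K n θ0 1) (1 / 2 ^ (K * n)) z 0 - 2 ^ κ * (S.w : ℝ)) / 2 ^ κ := by field_simp
        rw [this, abs_div, abs_of_pos h0]
      · rw [hx, ← abs_neg]; congr 1; ring
    · rw [hy, ← abs_neg]; congr 1; ring
  rw [← Finset.sum_filter]
  set V := U.filter (fun S => S.θ = θ0) with hV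
  have hinj : Set.InjOn (fun S : Pk => (S.o, S.w)) (V : Set Pk) := by
    intro S hS S' hS' hh
    have h1 : S.θ = θ0 := (Finset.mem_filter.1 hS).2
    have h2 : S'.θ = θ0 := (Finset.mem_filter.1 hS').2
    have h3 : S.o = S'.o := (Prod.ext_iff.1 hh).1
    have h4 : S.w = S'.w := (Prod.ext_iff.1 hh).2
    cases S; cases S'
    simp only at h1 h2 h3 h4
    subst h1; subst h2; subst h3; subst h4
    rfl
  have hle := h x y ζ (V.image (fun S : Pk => (S.o, S.w)))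
  rw [Finset.sum_image hinj] at hle
  calc ∑ S ∈ V, ENNReal.ofReal (((1 + S.g0 κ K n (mat4 nwM z)) ^ 4)⁻¹) =
      ∑ S ∈ V, ENNReal.ofReal (((1 + |x - S.o 0| + |y - S.o 1| + |ζ - S.w|) ^ 4)⁻¹) := by
        refine Finset.sum_congr rfl fun S hS => ?_
        rw [e S (Finset.mem_filter.1 hS).2]
        congr 3
        ring
    _ = ENNReal.ofReal (∑ S ∈ V, ((1 + |x - S.o 0| + |y - S.o 1| + |ζ - S.w|) ^ 4)⁻¹) := by
        rw [ENNReal.ofReal_sum_of_nonneg]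
        intro S _
        positivity
    _ ≤ _ := ENNReal.ofReal_le_ofReal hle

/-! ### the pieces -/

/-- relevant caps as an index set -/
def kk (θ : Z2) : ℤ × ℤ := (θ 0, θ 1)

theorem kk_inj : Function.Injective kk := by
  intro a b h
  have h0 : a 0 = b 0 := (Prod.ext_iff.1 h).1
  have h1 : a 1 = b 1 := (Prod.ext_iff.1 h).2
  funext i
  fin_cases i
  · exact h0
  · exact h1

/-- pieces of the four dimensional amplitude -/
noncomputable def pc (N : ℕ) (D j r1 : ℝ) (h0 : G.E3 → ℂ) (o : Fin 2 × Fin 2) (θ : Z2) : AN.E4 → ℂ := by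
  classical exact if kk θ ∈ sK psv psv N then bt D j (gN (aC H0 1 N ((kk θ).1 / N + sf N o.1) ((kk θ).2 / N + sf N o.2) (r1 / (N:ℝ) ^ 2)
    (gp H0 1 N h0 o (kk θ)))) else 0

theorem pc_pos {N : ℕ} {D j r1 : ℝ} {h0 : G.E3 → ℂ} {o : Fin 2 × Fin 2} {θ : Z2} (h : kk θ ∈ sK psv psv N) :
    pc N D j r1 h0 o θ = bt D j (gN (aC H0 1 N ((kk θ).1 / N + sf N o.1) ((kk θ).2 / N + sf N o.2) (r1 / (N:ℝ) ^ 2)
    (gp H0 1 N h0 o (kk θ)))) := by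
  unfold pc; rw [if_pos h]

theorem pc_neg {N : ℕ} {D j r1 : ℝ} {h0 : G.E3 → ℂ} {o : Fin 2 × Fin 2} {θ : Z2} (h : kk θ ∉ sK psv psv N) :
    pc N D j r1 h0 o θ = 0 := by
  unfold pc; rw [if_neg h]

theorem aC_int {c : ℝ} (hc : 0 < c) (hc1 : c ≤ 1) {N : ℕ} {β1 β2 κ : ℝ} (hC : G.Cap β1 β2 (1 / N)) (hκ : 0 < κ) {g : G.E3 → ℂ}
    (hg : Adm volume g) : Integrable (aC H0 c N β1 β2 κ g) := by
  unfold aC
  apply aP_integrable H0 0 0 hκ
  exact mint (sm_mu H0_ok2.ok (r1_chi0 hc hc1).toRcut (vc_capc hC.pos hC.l1 hC.r1) (vc_capc hC.pos hC.l2 hC.r2)).int hg.int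

/-- energy of one piece, general weight -/
theorem piece_bd (M : ℕ) {r1 A : ℝ} (hr : 0 < r1) (hA : 0 ≤ A) : ∃ C : ℝ, 0 ≤ C ∧ ∀ (N : ℕ) (D j : ℝ) (h0 : G.E3 → ℂ)
    (o : Fin 2 × Fin 2) (θ : Z2) (W : AN.E4 → ℝ≥0∞), 32 ≤ N → Adm volume h0 → kk θ ∈ sK psv psv N → Measurable W → (∀ z, W z ≠ ⊤) →
    (∀ z s, W (z + uv (s * D)) ≤ ENNReal.ofReal ((1 + |s|) ^ M) * W z) →
    (∀ z y', W (mat4 nwM z) ≤ ENNReal.ofReal ((A * ((1 + ‖Pb ((kk θ).1 / N + sf N o.1) ((kk θ).2 / N + sf N o.2) (1 / N) (z - H0.pt y')‖) *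
      (1 + |(1 / (N:ℝ)) ^ 2 * H0.tm z|))) ^ M) * W (mat4 nwM (H0.pt y'))) →
    ∫⁻ z, ‖𝓕⁻ (pc N D j r1 h0 o θ) z‖ₑ ^ 2 * W z ≤
      ENNReal.ofReal (C * (N:ℝ) ^ 2) * ∫⁻ y', ‖gp H0 1 N h0 o (kk θ) y'‖ₑ ^ 2 * W (mat4 nwM (H0.pt y')) := by
  obtain ⟨C1, hC1, h1⟩ := trunc M
  obtain ⟨C2, hC2, h2⟩ := transport (c := 1) one_pos le_rfl M (B := 1) (r1 := r1) (A := A) le_rfl hr hA
  refine ⟨2 * C1 * C2, by positivity, ?_⟩
  intro N D j h0 o θ W hN hh hθ hW hWt hWs hWP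
  have hN1 : 1 ≤ N := by omega
  have hN0 : (0:ℝ) < N := by exact_mod_cast hN1
  obtain ⟨hC, -, -⟩ := cap_sK vcut_psv vcut_psv hN hθ o.1 o.2
  have hgp : Adm volume (gp H0 1 N h0 o (kk θ)) := G.mop_adm (G.sm_MP H0_ok2 one_pos le_rfl hC) hh
  have hint := aC_int one_pos le_rfl hC (show 0 < r1 / (N:ℝ) ^ 2 by positivity) hgp
  rw [pc_pos hθ]
  set a := aC H0 1 N ((kk θ).1 / N + sf N o.1) ((kk θ).2 / N + sf N o.2) (r1 / (N:ℝ) ^ 2) (gp H0 1 N h0 o (kk θ)) with ha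
  have hnwc : Continuous (mat4 nwM) := (mat4 nwM).continuous_of_finiteDimensional
  have e1 : ∫⁻ z, ‖𝓕⁻ (gN a) z‖ₑ ^ 2 * W z = 2 * ∫⁻ z, ‖𝓕⁻ a z‖ₑ ^ 2 * W (mat4 nwM z) := by
    rw [lint_nw (fun z => ‖𝓕⁻ (gN a) z‖ₑ ^ 2 * W z)]
    simp_rw [inv_gN]
  calc _ ≤ ENNReal.ofReal C1 * ∫⁻ z, ‖𝓕⁻ (gN a) z‖ₑ ^ 2 * W z := h1 D j _ W (gN_int hint) hW hWt hWs
    _ = ENNReal.ofReal C1 * (2 * ∫⁻ z, ‖𝓕⁻ a z‖ₑ ^ 2 * W (mat4 nwM z)) := by rw [e1]
    _ ≤ ENNReal.ofReal C1 * (2 * (ENNReal.ofReal (C2 * (N:ℝ) ^ 2) * ∫⁻ y', ‖gp H0 1 N h0 o (kk θ) y'‖ₑ ^ 2 * W (mat4 nwM (H0.pt y')))) := by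
        gcongr
        exact h2 H0 N _ _ ((N:ℝ) ^ 2) _ (fun z => W (mat4 nwM z)) H0_ok2 hN1 hC (by positivity) (by linarith) hgp
          (hW.comp hnwc.measurable) (fun z => hWt _) hWP
    _ = _ := by
        generalize (∫⁻ y', ‖gp H0 1 N h0 o (kk θ) y'‖ₑ ^ 2 * W (mat4 nwM (H0.pt y'))) = X
        rw [show (2:ℝ≥0∞) = ENNReal.ofReal 2 by norm_num, ← mul_assoc, ← mul_assoc, ← ENNReal.ofReal_mul hC1,
          ← ENNReal.ofReal_mul (by positivity)]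
        congr 2
        ring

/-! ### energy on the cube -/

theorem enw_bd {r1 : ℝ} (hr : 0 < r1) (M : ℕ) : ∃ C : ℝ, 0 ≤ C ∧ ∀ (K n : ℕ) (N : ℕ) (D j : ℝ) (h0 : G.E3 → ℂ)
    (o : Fin 2 × Fin 2), N = 2 ^ (K * n) → 32 ≤ N → Adm volume h0 →
    AN.enw M K n (pc N D j r1 h0 o) ≤ ENNReal.ofReal (C * (N:ℝ) ^ 2) * ∫⁻ y, ‖h0 y‖ₑ ^ 2 := by
  classical
  obtain ⟨C, hC, h⟩ := piece_bd 0 (A := 1) hr zero_le_one
  refine ⟨C, hC, ?_⟩
  intro K n N D j h0 o hNe hN hh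
  have hN1 : 1 ≤ N := by omega
  unfold AN.enw
  set V := (AN.desc K n 0 0).filter (fun θ => kk θ ∈ sK psv psv N) with hV
  calc _ ≤ ∑ θ ∈ AN.desc K n 0 0, ∫⁻ z, ‖𝓕⁻ (pc N D j r1 h0 o θ) z‖ₑ ^ 2 := by
        refine Finset.sum_le_sum fun θ _ => lintegral_mono fun z => ?_
        have : ENNReal.ofReal (((1 + ‖z‖ / 2 ^ (2 * K * n)) ^ M)⁻¹) ≤ 1 := by
          rw [← ENNReal.ofReal_one]
          apply ENNReal.ofReal_le_ofReal
          apply inv_le_one_of_one_le₀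
          apply one_le_pow₀
          have : 0 ≤ ‖z‖ / 2 ^ (2 * K * n) := by positivity
          linarith
        calc _ ≤ ‖𝓕⁻ (pc N D j r1 h0 o θ) z‖ₑ ^ 2 * 1 := mul_le_mul' le_rfl this
          _ = _ := mul_one _
    _ = ∑ θ ∈ V, ∫⁻ z, ‖𝓕⁻ (pc N D j r1 h0 o θ) z‖ₑ ^ 2 := by
        rw [hV, Finset.sum_filter]
        refine Finset.sum_congr rfl fun θ _ => ?_
        by_cases hk : kk θ ∈ sK psv psv N
        · rw [if_pos hk]
        · rw [if_neg hk, pc_neg hk]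
          have : 𝓕⁻ (0 : AN.E4 → ℂ) = fun _ => 0 := by
            ext w
            rw [inv_eq]; simp
          rw [this]
          simp
    _ ≤ ∑ θ ∈ V, ENNReal.ofReal (C * (N:ℝ) ^ 2) * ∫⁻ y', ‖gp H0 1 N h0 o (kk θ) y'‖ₑ ^ 2 := by
        refine Finset.sum_le_sum fun θ hθ => ?_
        have h3 := h N D j h0 o θ (fun _ => 1) hN hh (Finset.mem_filter.1 hθ).2 measurable_const (fun _ => ENNReal.one_ne_top)
          (fun z s => by simp) (fun z y' => by simp)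
        simpa using h3
    _ = ENNReal.ofReal (C * (N:ℝ) ^ 2) * ∑ k ∈ V.image kk, ∫⁻ y', ‖gp H0 1 N h0 o k y'‖ₑ ^ 2 := by
        rw [Finset.sum_image (fun a _ b _ h => kk_inj h), Finset.mul_sum]
    _ ≤ ENNReal.ofReal (C * (N:ℝ) ^ 2) * ∫⁻ y, ‖h0 y‖ₑ ^ 2 := by
        refine mul_le_mul' le_rfl ?_
        have hsub : ∀ k ∈ V.image kk, k ∈ sK psv psv N := by
          intro k hk
          obtain ⟨θ, hθ, rfl⟩ := Finset.mem_image.1 hk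
          exact (Finset.mem_filter.1 hθ).2
        exact sum_MP_L2 H0_ok2 one_pos le_rfl hN1 (fun k hk => sK_sub _ _ _ (hsub k hk))
          (fun k hk => (cap_sK vcut_psv vcut_psv hN (hsub k hk) o.1 o.2).1) hh

/-! ### energy on a plank -/

theorem g0_uv (κ K n : ℕ) (S : Pk) (z : AN.E4) (s : ℝ) : S.gg κ K n z ≤ S.gg κ K n (z + uv (s * 2 ^ κ)) + |s| := by
  have h0 : (0:ℝ) < 2 ^ κ := by positivity
  unfold Pk.gg AN.gau
  have e1 : AN.nl (AN.slp n K S.θ) (z + uv (s * 2 ^ κ) - AN.pt (2 ^ κ) (2 ^ (K * n)) 0 (AN.slp n K S.θ) S.o S.w) =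
      AN.nl (AN.slp n K S.θ) (z - AN.pt (2 ^ κ) (2 ^ (K * n)) 0 (AN.slp n K S.θ) S.o S.w) + s * 2 ^ κ := by
    unfold AN.nl uv
    simp only [PiLp.sub_apply, PiLp.add_apply, PiLp.toLp_apply, Matrix.cons_val_zero, Matrix.cons_val_one, Matrix.cons_val]
    ring
  have e2 : AN.dv (AN.slp n K S.θ) (z + uv (s * 2 ^ κ) - AN.pt (2 ^ κ) (2 ^ (K * n)) 0 (AN.slp n K S.θ) S.o S.w) =
      AN.dv (AN.slp n K S.θ) (z - AN.pt (2 ^ κ) (2 ^ (K * n)) 0 (AN.slp n K S.θ) S.o S.w) := by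
    unfold AN.dv uv
    simp only [PiLp.sub_apply, PiLp.add_apply, PiLp.toLp_apply, Matrix.cons_val_zero, Matrix.cons_val_one, Matrix.cons_val, add_zero]
  have e3 : (z + uv (s * 2 ^ κ) - AN.pt (2 ^ κ) (2 ^ (K * n)) 0 (AN.slp n K S.θ) S.o S.w) 2 =
      (z - AN.pt (2 ^ κ) (2 ^ (K * n)) 0 (AN.slp n K S.θ) S.o S.w) 2 := by
    unfold uv
    simp only [PiLp.sub_apply, PiLp.add_apply, PiLp.toLp_apply, Matrix.cons_val, add_zero]
  rw [e1, e2, e3]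
  set A := AN.nl (AN.slp n K S.θ) (z - AN.pt (2 ^ κ) (2 ^ (K * n)) 0 (AN.slp n K S.θ) S.o S.w) with hA
  have h1 : |A| / 2 ^ κ ≤ |A + s * 2 ^ κ| / 2 ^ κ + |s| := by
    rw [div_add' _ _ _ h0.ne', div_le_div_iff_of_pos_right h0]
    calc |A| = |(A + s * 2 ^ κ) - s * 2 ^ κ| := by rw [add_sub_cancel_right]
      _ ≤ |A + s * 2 ^ κ| + |s * 2 ^ κ| := abs_sub _ _
      _ = _ := by rw [abs_mul, abs_of_pos h0]
  linarith

/-- weight of a plank -/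
noncomputable def wS (M κ K n : ℕ) (S : Pk) (z : AN.E4) : ℝ≥0∞ := ENNReal.ofReal (((1 + S.gg κ K n z) ^ M)⁻¹)

theorem inv_pow_le {a b c : ℝ} (M : ℕ) (ha : 0 < a) (hb : 0 < b) (hc : 0 ≤ c) (h : a ≤ c * b) : ((b) ^ M)⁻¹ ≤ c ^ M * ((a) ^ M)⁻¹ := by
  rw [← div_eq_mul_inv, inv_eq_one_div, div_le_div_iff₀ (by positivity) (by positivity), one_mul, ← mul_pow]
  exact pow_le_pow_left₀ ha.le h M

theorem cont_gg (κ K n : ℕ) (S : Pk) : Continuous (S.gg κ K n) := by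
  unfold Pk.gg AN.gau AN.nl Vale.Agent.P122.C2.fw Vale.Agent.P122.C2.fn AN.dv
  simp only [Matrix.cons_val_zero, Matrix.cons_val_one, Matrix.cons_val]
  fun_prop

theorem en_bd {r1 : ℝ} (hr : 0 < r1) (M : ℕ) : ∃ C : ℝ, 0 ≤ C ∧ ∀ (κ K n : ℕ) (N : ℕ) (j : ℝ) (h0 : G.E3 → ℂ)
    (o : Fin 2 × Fin 2) (S : Pk), N = 2 ^ (K * n) → κ ≤ K * n → 32 ≤ N → Adm volume h0 → kk S.θ ∈ sK psv psv N →
    S.en M κ K n (pc N (2 ^ κ) j r1 h0 o) ≤ ENNReal.ofReal (C * (N:ℝ) ^ 2) *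
      ∫⁻ y, ‖gp H0 1 N h0 o (kk S.θ) y‖ₑ ^ 2 * ENNReal.ofReal (((1 + pgr H0 κ K n (sf N o.1) (sf N o.2) S y) ^ M)⁻¹) := by
  obtain ⟨C, hC, h⟩ := piece_bd M (A := 24) hr (by norm_num)
  refine ⟨C * 4 ^ M, by positivity, ?_⟩
  intro κ K n N j h0 o S hNe hκ hN hh hS
  have hN1 : 1 ≤ N := by omega
  have hN0 : (0:ℝ) < N := by exact_mod_cast hN1
  have hNr : (N:ℝ) = 2 ^ (K * n) := by rw [hNe]; push_cast; rfl
  obtain ⟨hCp, ⟨c1, c2⟩, c3, c4⟩ := cap_sK vcut_psv vcut_psv hN hS o.1 o.2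
  have hi : 0 < 1 / (N:ℝ) := by positivity
  have hm' := (cap_m H0_ok2 hCp).1
  have hm := (H0_ok2.m_bd c1 (by linarith : ((kk S.θ).1:ℝ) / N ≤ 1) c3 (by linarith : ((kk S.θ).2:ℝ) / N ≤ 1)).1
  have hs0 : sl K n S.θ 0 = ((kk S.θ).1:ℝ) / N := by rw [hNr]; rfl
  have hs1 : sl K n S.θ 1 = ((kk S.θ).2:ℝ) / N := by rw [hNr]; rfl
  have hf1 := sf_le hN1 o.1
  have hf2 := sf_le hN1 o.2
  rw [hNr] at hf1 hf2
  have hb := H0_ok2.ok.bd
  have key := h N (2 ^ κ) j h0 o S.θ (wS M κ K n S) hN hh hS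
    (by
      unfold wS
      exact ((((cont_gg κ K n S).measurable.const_add 1).pow_const M).inv).ennreal_ofReal) (fun z => ENNReal.ofReal_ne_top)
    (by
      intro z s
      unfold wS
      rw [← ENNReal.ofReal_mul (by positivity)]
      apply ENNReal.ofReal_le_ofReal
      have g1 := gg_nonneg κ K n S (z + uv (s * 2 ^ κ))
      have g2 := gg_nonneg κ K n S z
      apply inv_pow_le M (by linarith) (by linarith) (by positivity)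
      have := g0_uv κ K n S z s
      have hs := abs_nonneg s
      nlinarith)
    (by
      intro z y'
      unfold wS
      rw [← ENNReal.ofReal_mul (by positivity)]
      apply ENNReal.ofReal_le_ofReal
      have g1 := gg_nonneg κ K n S (mat4 nwM z)
      have g2 := gg_nonneg κ K n S (mat4 nwM (H0.pt y'))
      apply inv_pow_le M (by linarith) (by linarith) (by positivity)
      have hp := gg_peetre hb (S := S) hκ hm' hCp.l1 (by linarith [hCp.r1]) hCp.l2 (by linarith [hCp.r2])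
        (by rw [hs0, sub_add_cancel_left, abs_neg]; exact hf1) (by rw [hs1, sub_add_cancel_left, abs_neg]; exact hf2)
        z (H0.pt y') (G.tm_pt H0 y')
      rw [← hNr] at hp
      exact hp)
  calc S.en M κ K n (pc N (2 ^ κ) j r1 h0 o) = ∫⁻ z, ‖𝓕⁻ (pc N (2 ^ κ) j r1 h0 o S.θ) z‖ₑ ^ 2 * wS M κ K n S z := rfl
    _ ≤ _ := key
    _ ≤ ENNReal.ofReal (C * (N:ℝ) ^ 2) * ∫⁻ y, ‖gp H0 1 N h0 o (kk S.θ) y‖ₑ ^ 2 *
        (ENNReal.ofReal (4 ^ M) * ENNReal.ofReal (((1 + pgr H0 κ K n (sf N o.1) (sf N o.2) S y) ^ M)⁻¹)) := by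
        gcongr with y
        unfold wS
        rw [← ENNReal.ofReal_mul (by positivity)]
        apply ENNReal.ofReal_le_ofReal
        have hcmp := (pg_cmp hb (S := S) (b1 := sf N o.1) (b2 := sf N o.2) hκ (by rw [hs0, hs1]; exact hm) (by rw [hs0, hs1]; exact hm')
          (by rw [hs0]; exact c1) (by rw [hs0]; linarith) (by rw [hs1]; exact c3) (by rw [hs1]; linarith)
          (by rw [hs0]; exact hCp.l1) (by rw [hs0]; linarith [hCp.r1]) (by rw [hs1]; exact hCp.l2) (by rw [hs1]; linarith [hCp.r2])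
          hf1 hf2 y).1
        have g1 := gg_nonneg κ K n S (mat4 nwM (H0.pt y))
        have g2 : 0 ≤ pgr H0 κ K n (sf N o.1) (sf N o.2) S y := by unfold pgr; positivity
        apply inv_pow_le M (by linarith) (by linarith) (by norm_num)
        have g3 : S.g0 κ K n (mat4 nwM (H0.pt y)) ≤ S.gg κ K n (mat4 nwM (H0.pt y)) := by
          rw [gg_eq]
          have : 0 ≤ |mat4 nwM (H0.pt y) 2| / (2:ℝ) ^ (2 * K * n) := by positivity
          linarith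
        linarith
    _ = _ := by
        have e : ∀ y, ‖gp H0 1 N h0 o (kk S.θ) y‖ₑ ^ 2 *
          (ENNReal.ofReal (4 ^ M) * ENNReal.ofReal (((1 + pgr H0 κ K n (sf N o.1) (sf N o.2) S y) ^ M)⁻¹)) =
          ENNReal.ofReal (4 ^ M) * (‖gp H0 1 N h0 o (kk S.θ) y‖ₑ ^ 2 *
          ENNReal.ofReal (((1 + pgr H0 κ K n (sf N o.1) (sf N o.2) S y) ^ M)⁻¹)) := fun y => by ring
        simp_rw [e]
        rw [lintegral_const_mul' _ _ ENNReal.ofReal_ne_top, ← mul_assoc, ← ENNReal.ofReal_mul (by positivity)]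
        congr 2
        ring

end Vale.Agent.P106.W301
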