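import Vale.Agent.P106.G.FinA

/-! # P106 / W2 : the linear restricted estimate in one ball, hyperplane `H0` (statement, helper301)

`lin_of` (helper301): `2 < P → StE P → StLin P`; `gl_of_lin` (helper401): `2 < P → StLin P → ∀ a > 0, StGL P a X0`. -/

open MeasureTheory Complex Set
open scoped ENNReal NNReal FourierTransform

namespace Vale.Agent.P106.W301

open Vale.Agent.P106.G (H0 chi0 psv)
open Vale.Agent.P117 (Adm)

/-- **[LIN]** -/
def StLin (P : ℝ) : Prop := ∀ a : ℝ, 0 < a → ∃ C : ℝ, 0 ≤ C ∧ ∀ (R : ℝ) (h : G.E3 → ℂ) (Y : Set G.E3), 1 ≤ R →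
  Adm volume h → MeasurableSet Y → volume Y < ⊤ → (∀ y, ‖h y‖ ≤ Y.indicator (fun _ => (1:ℝ)) y) →
  ∫⁻ t in Icc R (2 * R), ∫⁻ y in Metric.ball (0 : G.E3) R, ‖H0.U (H0.mu (chi0 1) psv psv) h t y‖ₑ ^ P ≤
    ENNReal.ofReal (C * R ^ (a * P + 1)) * volume Y

end Vale.Agent.P106.W301
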