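import Vale.Agent.P106.W301.BesP
import Vale.Agent.P106.W301.DatP
import Vale.Agent.P106.W301.Lin
import Vale.Agent.P106.G.BrF
import Vale.Agent.P106.W401.BesB

/-! # P106 / W2 : `StE P → StLin P` (helper301) -/

open MeasureTheory Complex Set
open scoped ENNReal NNReal FourierTransform SchwartzMap ContDiff

set_option linter.all false

namespace Vale.Agent.P106.W301

open Vale.Agent.P106.G (psi psv chi0 chiP mat4 Hyp H0 H0_ok2 sf sf_le sK gp Mc MP vcut_psv mop inv_eq continuous_inv abs_coord_le Psi Psi_low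
  sp3 zt_norm U_dec kn_fin mop_sup mop_Lp mop_adm sm_mu r1_chiP lint_sq_le_vol sum_rpow_le lint_zt tm_zt sp3_zt lint_ball_shift)
open Vale.Agent.P117 (Adm)
open Vale.Agent.P122.C2 (Z2)

/-- the half cube -/
def Reg (K n : ℕ) : Set AN.E4 := {z | (∀ i, |z i| ≤ 2 ^ (2 * K * n)) ∧ 0 ≤ z 2}

theorem mReg (K n : ℕ) : MeasurableSet (Reg K n) := by
  have h1 : IsClosed (Reg K n) := by
    have e : Reg K n = (⋂ i, {z : AN.E4 | |z i| ≤ 2 ^ (2 * K * n)}) ∩ {z | 0 ≤ z 2} := by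
      ext z; simp [Reg]
    rw [e]
    apply IsClosed.inter
    · apply isClosed_iInter
      intro i
      exact isClosed_le (by fun_prop) continuous_const
    · exact isClosed_le continuous_const (by fun_prop)
  exact h1.measurableSet

theorem pie_cont {C : ℝ} {κ K n : ℕ} {ρ : ℝ} {g : Z2 → AN.E4 → ℂ} (hg : AN.Dat C κ K n ρ g) : Continuous (AN.pie K n g 0 0) := by
  unfold AN.pie
  exact continuous_finset_sum _ fun θ _ => continuous_inv (hg.int θ)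

/-- region of integration in the new coordinates -/
theorem reg_mem {K n N : ℕ} (hNe : N = 2 ^ (K * n)) {R t : ℝ} (hR : 0 < R) (hRN : 24 * R ≤ (N:ℝ) ^ 2) (ht : t ∈ Icc R (2 * R)) {y : G.E3}
    (hy : y ∈ Metric.ball (0 : G.E3) R) : mat4 nwM (H0.zt t y) ∈ Reg K n ∧ ‖H0.zt t y‖ ≤ 6 * R := by
  have hNr : (N:ℝ) = 2 ^ (K * n) := by rw [hNe]; push_cast; rfl
  have e2 : (2:ℝ) ^ (2 * K * n) = (N:ℝ) ^ 2 := by rw [hNr, ← pow_mul]; congr 1; ring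
  have hy' : ‖y‖ ≤ R := by
    rw [mem_ball_zero_iff] at hy
    exact hy.le
  have hz := zt_norm H0_ok2.ok.bd hR ht hy'
  refine ⟨⟨?_, ?_⟩, hz⟩
  · intro i
    rw [e2]
    have a0 := abs_coord_le (H0.zt t y) 0
    have a1 := abs_coord_le (H0.zt t y) 1
    have a2 := abs_coord_le (H0.zt t y) 2
    have a3 := abs_coord_le (H0.zt t y) 3
    fin_cases i
    · show |mat4 nwM (H0.zt t y) 0| ≤ _
      rw [nw0, abs_neg]; linarith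
    · show |mat4 nwM (H0.zt t y) 1| ≤ _
      rw [nw1, abs_neg]; linarith
    · show |mat4 nwM (H0.zt t y) 2| ≤ _
      rw [nw2, abs_mul, abs_two]; linarith
    · show |mat4 nwM (H0.zt t y) 3| ≤ _
      rw [nw3]; linarith
  · rw [nw2]
    have e : H0.zt t y 3 = t - (H0.s * y 0 + H0.q1 * y 1 + H0.q2 * y 2) := rfl
    rw [e, G.H0_s, G.H0_q1, G.H0_q2]
    have a0 := abs_le.1 ((G.abs_coord3 y 0).trans hy')
    nlinarith [ht.1, a0.2]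

/-- choice of the scale -/
theorem scale_ex (K : ℕ) (hK : 1 ≤ K) {R : ℝ} (hR : 1 ≤ R) : ∃ n : ℕ, 5 ≤ n ∧ 24 * R ≤ ((2 ^ (K * n) : ℕ) : ℝ) ^ 2 ∧
    ((2 ^ (K * n) : ℕ) : ℝ) ^ 2 ≤ 2 ^ (12 * K) * R := by
  have hy : (1:ℝ) < 2 ^ (2 * K) := one_lt_pow₀ (by norm_num) (by omega)
  obtain ⟨m, h1, h2⟩ := exists_nat_pow_near hR hy
  refine ⟨m + 6, by omega, ?_, ?_⟩
  · have e : ((2 ^ (K * (m + 6)) : ℕ) : ℝ) ^ 2 = (2 ^ (2 * K)) ^ (m + 1) * 2 ^ (10 * K) := by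
      push_cast
      rw [← pow_mul, ← pow_mul, ← pow_add]; congr 1; ring
    rw [e]
    have h3 : (24:ℝ) ≤ 2 ^ (10 * K) := by
      calc (24:ℝ) ≤ 2 ^ 10 := by norm_num
        _ ≤ 2 ^ (10 * K) := pow_le_pow_right₀ (by norm_num) (by omega)
    calc 24 * R ≤ 2 ^ (10 * K) * (2 ^ (2 * K)) ^ (m + 1) := by gcongr
      _ = _ := by ring
  · have e : ((2 ^ (K * (m + 6)) : ℕ) : ℝ) ^ 2 = 2 ^ (12 * K) * (2 ^ (2 * K)) ^ m := by
      push_cast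
      rw [← pow_mul, ← pow_mul, ← pow_add]; congr 1; ring
    rw [e]
    gcongr

/-- the solution is controlled by the pieces -/
theorem pw_pie {K n N : ℕ} (hNe : N = 2 ^ (K * n)) (hN : 32 ≤ N) {r r1 : ℝ} (hr : 0 < r1) (hr1 : r1 ≤ 1 / 64) (hrr : r1 ≤ r)
    (hPsi : ∀ x : G.E4, ‖x‖ ≤ r → 1/2 ≤ ‖Psi x‖) {h : G.E3 → ℂ} (hh : Adm volume h) (κ : ℕ) {t : ℝ} {y : G.E3}
    (hz : ‖H0.zt t y‖ ≤ (N:ℝ) ^ 2) :
    ‖H0.U (H0.mu (chi0 1) psv psv) h t y‖ₑ ≤ ∑ q ∈ (Finset.univ : Finset (Fin 2 × Fin 2)) ×ˢ Finset.Icc (0:ℤ) (2 ^ κ),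
      ‖AN.pie K n (pc N (2 ^ κ) (q.2 - 1/2) r1 (mop (H0.mu (chiP 1) psv psv) h) q.1) 0 0 (mat4 nwM (H0.zt t y))‖ₑ := by
  have hN1 : 1 ≤ N := by omega
  have hN0 : (0:ℝ) < N := by exact_mod_cast hN1
  have hsmP : G.Sm (H0.mu (chiP 1) psv psv) := sm_mu H0_ok2.ok (r1_chiP one_pos le_rfl).toRcut vcut_psv.vc vcut_psv.vc
  have hh0 : Adm volume (mop (H0.mu (chiP 1) psv psv) h) := mop_adm hsmP hh
  rw [U_dec H0_ok2 one_pos le_rfl hN vcut_psv vcut_psv hh, Finset.sum_product]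
  refine (enorm_sum_le _ _).trans (Finset.sum_le_sum fun o _ => ?_)
  set S := ∑ k ∈ sK psv psv N, H0.U (Mc H0 1 N o k) (gp H0 1 N (mop (H0.mu (chiP 1) psv psv) h) o k) t y with hS
  have hp := hPsi ((r1 / (N:ℝ) ^ 2) • H0.zt t y) (by
    rw [norm_smul, Real.norm_of_nonneg (by positivity)]
    calc r1 / (N:ℝ) ^ 2 * ‖H0.zt t y‖ ≤ r1 / (N:ℝ) ^ 2 * (N:ℝ) ^ 2 := by gcongr
      _ = r1 := by field_simp
      _ ≤ r := hrr)
  have hsum := sum_pc hNe hN hr hr1 hh0 κ o (H0.zt t y)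
  rw [tm_zt, sp3_zt] at hsum
  have h1 : ‖S‖ ≤ ‖2 * Psi ((r1 / (N:ℝ) ^ 2) • H0.zt t y) * S‖ := by
    rw [norm_mul, norm_mul]
    simp only [Complex.norm_ofNat]
    have := norm_nonneg S
    nlinarith
  have h2 : ‖S‖ₑ ≤ ‖2 * Psi ((r1 / (N:ℝ) ^ 2) • H0.zt t y) * S‖ₑ := by
    rw [← ofReal_norm, ← ofReal_norm]
    exact ENNReal.ofReal_le_ofReal h1
  refine h2.trans ?_
  rw [← hsum]
  exact enorm_sum_le _ _

/-- bound of the mollified data -/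
theorem h0_bd : ∃ A : ℝ, 0 ≤ A ∧ ∀ (h : G.E3 → ℂ) (Y : Set G.E3), Adm volume h → MeasurableSet Y →
    (∀ y, ‖h y‖ ≤ Y.indicator (fun _ => (1:ℝ)) y) → (∀ x, ‖mop (H0.mu (chiP 1) psv psv) h x‖ ≤ A) ∧
    ∫⁻ x, ‖mop (H0.mu (chiP 1) psv psv) h x‖ₑ ^ 2 ≤ ENNReal.ofReal (A ^ 2) * volume Y := by
  have hsmP : G.Sm (H0.mu (chiP 1) psv psv) := sm_mu H0_ok2.ok (r1_chiP one_pos le_rfl).toRcut vcut_psv.vc vcut_psv.vc
  obtain ⟨A, hA, hk⟩ := kn_fin hsmP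
  refine ⟨A, hA, ?_⟩
  intro h Y hh mY hY
  have hA1 : ∀ x, ‖h x‖ ≤ 1 := fun x => (hY x).trans (by
    by_cases hx : x ∈ Y
    · rw [indicator_of_mem hx]
    · rw [indicator_of_notMem hx]; norm_num)
  constructor
  · intro x
    have := mop_sup hsmP hh hk hA1 x
    rw [mul_one, ← ofReal_norm] at this
    exact (ENNReal.ofReal_le_ofReal_iff hA).1 this
  · have h2 := mop_Lp hsmP hh (p := 2) (by norm_num) hA hk
    have e : ∀ f : G.E3 → ℂ, ∫⁻ y, ‖f y‖ₑ ^ (2:ℝ) = ∫⁻ y, ‖f y‖ₑ ^ 2 := by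
      intro f
      refine lintegral_congr fun y => ?_
      exact_mod_cast ENNReal.rpow_natCast (‖f y‖ₑ) 2
    rw [e, e, show A ^ (2:ℝ) = A ^ 2 by exact_mod_cast Real.rpow_natCast A 2] at h2
    exact h2.trans (mul_le_mul' le_rfl (lint_sq_le_vol mY hY))

/-- powers -/
theorem num_a {P ε CE Λ CW A R a : ℝ} {K n κ h N : ℕ} (hP : 2 < P) (hκ : κ = h * n) (hh : (h:ℝ) ≤ ε * K) (hε : 0 < ε)
    (hε2 : ε * (P + 2) ≤ a * P) (ha : 0 < a) (hNe : N = 2 ^ (K * n)) (hCE : 0 ≤ CE) (hΛ : 0 ≤ Λ) (hCW : 0 ≤ CW) (hR : 1 ≤ R)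
    (hNR : (N:ℝ) ^ 2 ≤ 2 ^ (12 * K) * R) :
    (4 * ((2:ℝ) ^ κ + 1)) ^ P * ((4 * ((2:ℝ) ^ κ + 1)) * (CE * 2 ^ (ε * (K * n)) * Λ ^ ((P - 2) / 2) * (CW * (N:ℝ) ^ 2 * A ^ 2))) ≤
      (8 ^ (P + 1) * (CE * Λ ^ ((P - 2) / 2) * (CW * A ^ 2)) * (2 ^ (12 * K)) ^ (a * P + 1)) * R ^ (a * P + 1) := by
  have hNr : (N:ℝ) = 2 ^ (K * n) := by rw [hNe]; push_cast; rfl
  have hN1 : (1:ℝ) ≤ N := by rw [hNr]; exact one_le_pow₀ (by norm_num)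
  have hN0 : (0:ℝ) < N := by linarith
  have hD1 : (1:ℝ) ≤ 2 ^ κ := one_le_pow₀ (by norm_num)
  -- `2^(ε K n) = N^ε`
  have e1 : (2:ℝ) ^ (ε * (K * n)) = (N:ℝ) ^ ε := by
    rw [hNr, ← Real.rpow_natCast, ← Real.rpow_mul (by norm_num)]
    congr 1
    push_cast
    ring
  have e2 : (2:ℝ) ^ κ ≤ (N:ℝ) ^ ε := by
    rw [← e1, ← Real.rpow_natCast]
    apply Real.rpow_le_rpow_of_exponent_le (by norm_num)
    rw [hκ]
    push_cast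
    have hn : (0:ℝ) ≤ n := Nat.cast_nonneg _
    nlinarith
  have hNe0 : (1:ℝ) ≤ (N:ℝ) ^ ε := Real.one_le_rpow hN1 hε.le
  have e3 : 4 * ((2:ℝ) ^ κ + 1) ≤ 8 * (N:ℝ) ^ ε := by linarith
  have hX0 : 0 < 4 * ((2:ℝ) ^ κ + 1) := by positivity
  have e4 : (4 * ((2:ℝ) ^ κ + 1)) ^ P * (4 * ((2:ℝ) ^ κ + 1)) ≤ 8 ^ (P + 1) * (N:ℝ) ^ (ε * (P + 1)) := by
    calc (4 * ((2:ℝ) ^ κ + 1)) ^ P * (4 * ((2:ℝ) ^ κ + 1)) = (4 * ((2:ℝ) ^ κ + 1)) ^ (P + 1) := by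
          rw [Real.rpow_add_one hX0.ne']
      _ ≤ (8 * (N:ℝ) ^ ε) ^ (P + 1) := Real.rpow_le_rpow hX0.le e3 (by linarith)
      _ = _ := by rw [Real.mul_rpow (by norm_num) (by positivity), ← Real.rpow_mul hN0.le]
  have e5 : (N:ℝ) ^ (ε * (P + 1)) * (N:ℝ) ^ ε * (N:ℝ) ^ 2 ≤ (2 ^ (12 * K)) ^ (a * P + 1) * R ^ (a * P + 1) := by
    have h1 : (N:ℝ) ^ (ε * (P + 1)) * (N:ℝ) ^ ε = (N:ℝ) ^ (ε * (P + 2)) := by
      rw [← Real.rpow_add hN0]; congr 1; ring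
    have h2 : (N:ℝ) ^ (ε * (P + 2)) ≤ ((N:ℝ) ^ 2) ^ (a * P) := by
      calc (N:ℝ) ^ (ε * (P + 2)) ≤ (N:ℝ) ^ (a * P) := Real.rpow_le_rpow_of_exponent_le hN1 hε2
        _ ≤ ((N:ℝ) ^ 2) ^ (a * P) := by
            apply Real.rpow_le_rpow hN0.le _ (by positivity)
            nlinarith
    have h3 : ((N:ℝ) ^ 2) ^ (a * P) * (N:ℝ) ^ 2 = ((N:ℝ) ^ 2) ^ (a * P + 1) := by
      rw [Real.rpow_add_one (by positivity)]
    rw [h1, ← Real.mul_rpow (by positivity) (by linarith)]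
    calc (N:ℝ) ^ (ε * (P + 2)) * (N:ℝ) ^ 2 ≤ ((N:ℝ) ^ 2) ^ (a * P) * (N:ℝ) ^ 2 := by gcongr
      _ = ((N:ℝ) ^ 2) ^ (a * P + 1) := h3
      _ ≤ _ := Real.rpow_le_rpow (by positivity) hNR (by positivity)
  rw [e1]
  have hQ : 0 ≤ CE * Λ ^ ((P - 2) / 2) * (CW * A ^ 2) := by positivity
  calc _ = (CE * Λ ^ ((P - 2) / 2) * (CW * A ^ 2)) * (((4 * ((2:ℝ) ^ κ + 1)) ^ P * (4 * ((2:ℝ) ^ κ + 1))) * ((N:ℝ) ^ ε * (N:ℝ) ^ 2)) := by ring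
    _ ≤ (CE * Λ ^ ((P - 2) / 2) * (CW * A ^ 2)) * ((8 ^ (P + 1) * (N:ℝ) ^ (ε * (P + 1))) * ((N:ℝ) ^ ε * (N:ℝ) ^ 2)) := by gcongr
    _ = 8 ^ (P + 1) * (CE * Λ ^ ((P - 2) / 2) * (CW * A ^ 2)) * ((N:ℝ) ^ (ε * (P + 1)) * (N:ℝ) ^ ε * (N:ℝ) ^ 2) := by ring
    _ ≤ 8 ^ (P + 1) * (CE * Λ ^ ((P - 2) / 2) * (CW * A ^ 2)) * ((2 ^ (12 * K)) ^ (a * P + 1) * R ^ (a * P + 1)) := by gcongr
    _ = _ := by ring

/-- **[LIN]** -/
theorem lin_of {P : ℝ} (hP : 2 < P) (hE : StE P) : StLin P := by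
  intro a ha
  have hP0 : 0 < P := by linarith
  set ε := min 1 (a * P / (P + 2)) with hεd
  have hε : 0 < ε := by
    rw [hεd]
    apply lt_min one_pos
    positivity
  have hε1 : ε ≤ 1 := min_le_left _ _
  have hε2 : ε * (P + 2) ≤ a * P := by
    have : ε ≤ a * P / (P + 2) := min_le_right _ _
    rwa [le_div_iff₀ (by linarith)] at this
  obtain ⟨K, hh, hK, hhK, hE1⟩ := hE ε hε
  obtain ⟨M0, hM0⟩ := bes_pc W401.stBESD K hK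
  obtain ⟨r, hr, hrle, hPsi⟩ := Psi_low
  set r1 := r / 64 with hr1d
  have hr1 : 0 < r1 := by positivity
  have hr1le : r1 ≤ 1 / 64 := by rw [hr1d]; linarith
  have hr1r : r1 ≤ r := by rw [hr1d]; linarith
  obtain ⟨A, hA, hAb⟩ := h0_bd
  obtain ⟨Λ, hΛ, hBes⟩ := hM0 M0 r1 A le_rfl hr1
  obtain ⟨CE, hCE, hE2⟩ := hE1 M0 3 (by norm_num)
  obtain ⟨CW, hCW, hEnw⟩ := enw_bd hr1 M0
  refine ⟨8 ^ (P + 1) * (CE * Λ ^ ((P - 2) / 2) * (CW * A ^ 2)) * (2 ^ (12 * K)) ^ (a * P + 1), by positivity, ?_⟩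
  intro R h Y hR hadm mY fY hY
  have hR0 : 0 < R := by linarith
  obtain ⟨n, hn5, hRN, hNR⟩ := scale_ex K hK hR
  set N := 2 ^ (K * n) with hNe
  have h5 : 5 ≤ K * n := by nlinarith
  have hN : 32 ≤ N := by
    rw [hNe]
    calc 32 = 2 ^ 5 := by norm_num
      _ ≤ 2 ^ (K * n) := Nat.pow_le_pow_right (by norm_num) h5
  set κ := hh * n with hκ
  have hhK' : hh ≤ K := by
    have h1 : (hh:ℝ) ≤ K := hhK.trans (by
      have : (0:ℝ) ≤ K := Nat.cast_nonneg _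
      nlinarith)
    exact_mod_cast h1
  have hκK : κ ≤ K * n := Nat.mul_le_mul_right _ hhK'
  have hsmP : G.Sm (H0.mu (chiP 1) psv psv) := sm_mu H0_ok2.ok (r1_chiP one_pos le_rfl).toRcut vcut_psv.vc vcut_psv.vc
  set h0 := mop (H0.mu (chiP 1) psv psv) h with hh0d
  have hh0 : Adm volume h0 := mop_adm hsmP hadm
  obtain ⟨hA1, hA2⟩ := hAb h Y hadm mY hY
  set s := (Finset.univ : Finset (Fin 2 × Fin 2)) ×ˢ Finset.Icc (0:ℤ) (2 ^ κ) with hs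
  set pp : (Fin 2 × Fin 2) × ℤ → AN.E4 → ℂ := fun q => AN.pie K n (pc N (2 ^ κ) (q.2 - 1/2) r1 h0 q.1) 0 0 with hpp
  have hdat : ∀ q ∈ s, AN.Dat 3 κ K n (1 + q.2 / 2 ^ κ) (pc N (2 ^ κ) (q.2 - 1/2) r1 h0 q.1) := by
    intro q hq
    have hq2 := Finset.mem_Icc.1 (Finset.mem_product.1 hq).2
    exact dat_pc hNe hN hr1 hr1le hh0 hq2.1 hq2.2 q.1
  have hpm : ∀ q ∈ s, Measurable (fun z => ‖pp q z‖ₑ ^ P) := fun q hq => ((pie_cont (hdat q hq)).measurable.enorm).pow_const _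
  have hcard : (s.card : ℝ≥0∞) = ENNReal.ofReal (4 * ((2:ℝ) ^ κ + 1)) := by
    rw [hs, Finset.card_product, Int.card_Icc, ← ENNReal.ofReal_natCast]
    congr 1
    have e : ((2:ℤ) ^ κ + 1 - 0).toNat = 2 ^ κ + 1 := by
      rw [sub_zero]
      have : (2:ℤ) ^ κ + 1 = ((2 ^ κ + 1 : ℕ) : ℤ) := by push_cast; rfl
      rw [this, Int.toNat_natCast]
    rw [e]
    simp
  have hcq : (s.card : ℝ≥0∞) ^ P = ENNReal.ofReal ((4 * ((2:ℝ) ^ κ + 1)) ^ P) := by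
    rw [hcard, ENNReal.ofReal_rpow_of_nonneg (by positivity) (by linarith)]
  -- pointwise
  have hpt : ∀ t ∈ Icc R (2 * R), ∀ y ∈ Metric.ball (0 : G.E3) R, ‖H0.U (H0.mu (chi0 1) psv psv) h t y‖ₑ ^ P ≤
      (Reg K n).indicator (fun w => (s.card : ℝ≥0∞) ^ P * ∑ q ∈ s, ‖pp q w‖ₑ ^ P) (mat4 nwM (H0.zt t y)) := by
    intro t ht y hy
    obtain ⟨g1, g2⟩ := reg_mem hNe hR0 hRN ht hy
    rw [indicator_of_mem g1]
    refine (ENNReal.rpow_le_rpow (pw_pie hNe hN hr1 hr1le hr1r hPsi hadm κ (by linarith)) hP0.le).trans ?_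
    exact sum_rpow_le s (fun q => ‖pp q (mat4 nwM (H0.zt t y))‖ₑ) hP0
  have hmΦ : Measurable (fun w => (s.card : ℝ≥0∞) ^ P * ∑ q ∈ s, ‖pp q w‖ₑ ^ P) :=
    (Finset.measurable_sum _ fun q hq => hpm q hq).const_mul _
  have hmI : Measurable ((Reg K n).indicator (fun w => (s.card : ℝ≥0∞) ^ P * ∑ q ∈ s, ‖pp q w‖ₑ ^ P)) := hmΦ.indicator (mReg K n)
  have hnwc : Continuous (mat4 nwM) := (mat4 nwM).continuous_of_finiteDimensional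
  set Φ := (Reg K n).indicator (fun w => (s.card : ℝ≥0∞) ^ P * ∑ q ∈ s, ‖pp q w‖ₑ ^ P) with hΦ
  calc _ ≤ ∫⁻ t : ℝ, ∫⁻ y : G.E3, Φ (mat4 nwM (H0.zt t y)) := by
        rw [← lintegral_indicator measurableSet_Icc]
        refine lintegral_mono fun t => ?_
        by_cases ht : t ∈ Icc R (2 * R)
        · rw [indicator_of_mem ht, ← lintegral_indicator measurableSet_ball]
          refine lintegral_mono fun y => ?_
          by_cases hy : y ∈ Metric.ball (0 : G.E3) R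
          · rw [indicator_of_mem hy]
            exact hpt t ht y hy
          · rw [indicator_of_notMem hy]; exact zero_le
        · rw [indicator_of_notMem ht]; exact zero_le
    _ = ∫⁻ z, Φ (mat4 nwM z) := (lint_zt H0 (hmI.comp hnwc.measurable)).symm
    _ ≤ ∫⁻ w, Φ w := by
        rw [lint_nw Φ]
        exact le_mul_of_one_le_left' (by norm_num)
    _ = (s.card : ℝ≥0∞) ^ P * ∑ q ∈ s, ∫⁻ w in Reg K n, ‖pp q w‖ₑ ^ P := by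
        rw [hΦ, lintegral_indicator (mReg K n), lintegral_const_mul _ (Finset.measurable_sum _ fun q hq => hpm q hq),
          lintegral_finset_sum _ (fun q hq => hpm q hq)]
    _ ≤ (s.card : ℝ≥0∞) ^ P * ∑ q ∈ s, ENNReal.ofReal (CE * 2 ^ (ε * (K * n)) * Λ ^ ((P - 2) / 2)) *
          (ENNReal.ofReal (CW * (N:ℝ) ^ 2) * (ENNReal.ofReal (A ^ 2) * volume Y)) := by
        refine mul_le_mul' le_rfl (Finset.sum_le_sum fun q hq => ?_)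
        have hb := hBes κ n N (q.2 - 1/2) h0 q.1 hNe hκK hn5 hh0 hA1
        have h1 := hE2 n (1 + q.2 / 2 ^ κ) (pc N (2 ^ κ) (q.2 - 1/2) r1 h0 q.1) Λ (hdat q hq) hΛ hb
        refine h1.trans (mul_le_mul' le_rfl ?_)
        exact (hEnw K n N (2 ^ κ) (q.2 - 1/2) h0 q.1 hNe hN hh0).trans (mul_le_mul' le_rfl hA2)
    _ = ENNReal.ofReal ((4 * ((2:ℝ) ^ κ + 1)) ^ P * ((4 * ((2:ℝ) ^ κ + 1)) * (CE * 2 ^ (ε * (K * n)) * Λ ^ ((P - 2) / 2) *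
          (CW * (N:ℝ) ^ 2 * A ^ 2)))) * volume Y := by
        rw [Finset.sum_const, nsmul_eq_mul, hcq, hcard]
        rw [ENNReal.ofReal_mul (p := (4 * ((2:ℝ) ^ κ + 1)) ^ P) (by positivity), ENNReal.ofReal_mul (p := 4 * ((2:ℝ) ^ κ + 1)) (by positivity),
          ENNReal.ofReal_mul (p := CE * 2 ^ (ε * (K * n)) * Λ ^ ((P - 2) / 2)) (by positivity),
          ENNReal.ofReal_mul (p := CW * (N:ℝ) ^ 2) (by positivity)]
        ring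
    _ ≤ _ := by
        refine mul_le_mul' (ENNReal.ofReal_le_ofReal ?_) le_rfl
        exact num_a hP hκ hhK hε hε2 ha hNe hCE hΛ hCW hR hNR

end Vale.Agent.P106.W301
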