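import Vale.Agent.P106.W301.Crd

/-! # P106 / W2 : comparison of the gauges (helper301) -/

open MeasureTheory Complex Set
open scoped ENNReal NNReal FourierTransform

set_option linter.all false

namespace Vale.Agent.P106.W301

open Vale.Agent.P106.G (mat4 mat4_apply Pb Pb0 Pb1 Pb2 Hyp H0 H0_s H0_q1 H0_q2 mat3 mat3_apply e_bd norm3_le1 abs_coord3 AT_Pb)
open Vale.Agent.P122.C2 (Z2)

/-! ### one vector -/

/-- gauge of the plate in the direction `β` -/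
noncomputable def G4 (β1 β2 D n : ℝ) (u : G.E4) : ℝ :=
  |Pb β1 β2 (1 / n) u 0| / D + |Pb β1 β2 (1 / n) u 1| + |Pb β1 β2 (1 / n) u 2|

theorem G4_nonneg {β1 β2 D n : ℝ} (hD : 0 ≤ D) (u : G.E4) : 0 ≤ G4 β1 β2 D n u := by
  unfold G4; positivity

theorem u3_bd {H : Hyp} (hb : H.Bd) {β1 β2 : ℝ} (hm : 1 ≤ H.m β1 β2) (h1 : 0 ≤ β1) (h1' : β1 ≤ 1) (h2 : 0 ≤ β2) (h2' : β2 ≤ 1)
    (u : G.E4) : |u 3| ≤ |H.tm u| + |u 0 + β1 * u 1 + β2 * u 2 + (β1 ^ 2 + β2 ^ 2) * u 3| + |u 1 + 2 * β1 * u 3| + |u 2 + 2 * β2 * u 3| := by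
  set x0 := u 0 + β1 * u 1 + β2 * u 2 + (β1 ^ 2 + β2 ^ 2) * u 3 with hx0
  set x1 := u 1 + 2 * β1 * u 3 with hx1
  set x2 := u 2 + 2 * β2 * u 3 with hx2
  have hm0 : 0 < H.m β1 β2 := by linarith
  have he := e_bd (β1 := β1) (β2 := β2) (m := H.m β1 β2) (x0 := x0) (x1 := x1) (x2 := x2) hb.s0 hb.s1 hb.q1a hb.q2a hm h1 h1' h2 h2'
  set e := (H.s * (x0 - β1 * x1 - β2 * x2) + H.q1 * x1 + H.q2 * x2) / H.m β1 β2 with hedef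
  have em : H.m β1 β2 = H.s * (β1 ^ 2 + β2 ^ 2) - 2 * (H.q1 * β1 + H.q2 * β2) + 1 := rfl
  have ht : H.tm u / H.m β1 β2 = u 3 + e := by
    rw [hedef, div_eq_iff hm0.ne', add_mul, div_mul_cancel₀ _ hm0.ne']
    unfold Hyp.tm
    rw [hx0, hx1, hx2, em]
    ring
  have h5 : |H.tm u / H.m β1 β2| ≤ |H.tm u| := by
    rw [abs_div, abs_of_pos hm0]
    exact div_le_self (abs_nonneg _) hm
  have h6 : u 3 = H.tm u / H.m β1 β2 - e := by linarith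
  rw [h6]
  have n0 := abs_nonneg x0
  have n1 := abs_nonneg x1
  have n2 := abs_nonneg x2
  refine (abs_sub _ _).trans ?_
  linarith

theorem Pb_abs {β1 β2 n : ℝ} (hn : 1 ≤ n) (u : G.E4) : |u 1 + 2 * β1 * u 3| = n * |Pb β1 β2 (1 / n) u 1| ∧
    |u 2 + 2 * β2 * u 3| = n * |Pb β1 β2 (1 / n) u 2| := by
  have hn0 : 0 < n := by linarith
  rw [Pb1, Pb2, abs_mul, abs_mul, abs_of_pos (by positivity : 0 < 1 / n)]
  constructor <;> field_simp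

theorem u3_G4 {H : Hyp} (hb : H.Bd) {β1 β2 D n : ℝ} (hm : 1 ≤ H.m β1 β2) (h1 : 0 ≤ β1) (h1' : β1 ≤ 1) (h2 : 0 ≤ β2)
    (h2' : β2 ≤ 1) (hn : 1 ≤ n) (hD : 0 < D) (hDn : D ≤ n) (u : G.E4) : |u 3| / n ^ 2 ≤ |H.tm u| / n ^ 2 + G4 β1 β2 D n u / n := by
  have hn0 : 0 < n := by linarith
  have h3 := u3_bd hb hm h1 h1' h2 h2' u
  obtain ⟨e1, e2⟩ := Pb_abs (β1 := β1) (β2 := β2) hn u
  rw [e1, e2] at h3
  unfold G4
  set a := |Pb β1 β2 (1 / n) u 0| with ha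
  set b := |Pb β1 β2 (1 / n) u 1| with hb
  set c := |Pb β1 β2 (1 / n) u 2| with hc
  have ha' : |u 0 + β1 * u 1 + β2 * u 2 + (β1 ^ 2 + β2 ^ 2) * u 3| = a := rfl
  rw [ha'] at h3
  have ha0 : 0 ≤ a := abs_nonneg _
  have : a ≤ n * (a / D) := by
    rw [← mul_div_assoc, le_div_iff₀ hD]
    nlinarith
  rw [div_add_div _ _ (by positivity) hn0.ne', div_le_div_iff₀ (by positivity) (by positivity)]
  have h4 : |u 3| ≤ |H.tm u| + n * (a / D) + n * b + n * c := by linarith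
  calc |u 3| * (n ^ 2 * n) ≤ (|H.tm u| + n * (a / D) + n * b + n * c) * (n ^ 2 * n) := by gcongr
    _ = _ := by ring

/-- change of the direction -/
theorem G4_cmp {H : Hyp} (hb : H.Bd) {β1 β2 β1' β2' D n : ℝ} (hm : 1 ≤ H.m β1 β2) (h1 : 0 ≤ β1) (h1' : β1 ≤ 1) (h2 : 0 ≤ β2)
    (h2' : β2 ≤ 1) (hn : 1 ≤ n) (hD : 1 ≤ D) (hDn : D ≤ n) (d1 : |β1' - β1| ≤ 1/4 / n) (d2 : |β2' - β2| ≤ 1/4 / n) (u : G.E4) :
    G4 β1' β2' D n u ≤ 4 * (G4 β1 β2 D n u + |H.tm u| / n ^ 2) := by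
  have hn0 : 0 < n := by linarith
  have hD0 : 0 < D := by linarith
  have h3 := u3_G4 hb hm h1 h1' h2 h2' hn hD0 hDn u
  obtain ⟨e1, e2⟩ := Pb_abs (β1 := β1) (β2 := β2) hn u
  set b1 := β1' - β1 with hb1
  set b2 := β2' - β2 with hb2
  have g0 : Pb β1' β2' (1 / n) u 0 = Pb β1 β2 (1 / n) u 0 + b1 * (u 1 + 2 * β1 * u 3) + b2 * (u 2 + 2 * β2 * u 3) + (b1 ^ 2 + b2 ^ 2) * u 3 := by
    rw [Pb0, Pb0, hb1, hb2]; ring
  have g1 : Pb β1' β2' (1 / n) u 1 = Pb β1 β2 (1 / n) u 1 + 2 * b1 * u 3 / n := by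
    rw [Pb1, Pb1, hb1]; ring
  have g2 : Pb β1' β2' (1 / n) u 2 = Pb β1 β2 (1 / n) u 2 + 2 * b2 * u 3 / n := by
    rw [Pb2, Pb2, hb2]; ring
  unfold G4 at h3 ⊢
  rw [g0, g1, g2]
  set a := |Pb β1 β2 (1 / n) u 0| with ha
  set b := |Pb β1 β2 (1 / n) u 1| with hbb
  set c := |Pb β1 β2 (1 / n) u 2| with hc
  have ha0 : 0 ≤ a := abs_nonneg _
  have hb0 : 0 ≤ b := abs_nonneg _
  have hc0 : 0 ≤ c := abs_nonneg _
  have q1 : b1 ^ 2 ≤ (1/4 / n) ^ 2 := by rw [← sq_abs]; exact pow_le_pow_left₀ (abs_nonneg _) d1 2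
  have q2 : b2 ^ 2 ≤ (1/4 / n) ^ 2 := by rw [← sq_abs]; exact pow_le_pow_left₀ (abs_nonneg _) d2 2
  have k1 : |b1 * (u 1 + 2 * β1 * u 3)| ≤ 1/4 * b := by
    rw [abs_mul, e1]
    calc |b1| * (n * b) ≤ 1/4 / n * (n * b) := by gcongr
      _ = _ := by field_simp
  have k2 : |b2 * (u 2 + 2 * β2 * u 3)| ≤ 1/4 * c := by
    rw [abs_mul, e2]
    calc |b2| * (n * c) ≤ 1/4 / n * (n * c) := by gcongr
      _ = _ := by field_simp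
  have k3 : |(b1 ^ 2 + b2 ^ 2) * u 3| ≤ 1/8 * (|u 3| / n ^ 2) := by
    rw [abs_mul, abs_of_nonneg (by positivity)]
    calc (b1 ^ 2 + b2 ^ 2) * |u 3| ≤ ((1/4 / n) ^ 2 + (1/4 / n) ^ 2) * |u 3| := by gcongr
      _ = _ := by field_simp; ring
  have k4 : |2 * b1 * u 3 / n| ≤ 1/2 * (|u 3| / n ^ 2) := by
    rw [abs_div, abs_mul, abs_mul, abs_of_pos hn0, abs_two]
    calc 2 * |b1| * |u 3| / n ≤ 2 * (1/4 / n) * |u 3| / n := by gcongr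
      _ = _ := by field_simp; ring
  have k5 : |2 * b2 * u 3 / n| ≤ 1/2 * (|u 3| / n ^ 2) := by
    rw [abs_div, abs_mul, abs_mul, abs_of_pos hn0, abs_two]
    calc 2 * |b2| * |u 3| / n ≤ 2 * (1/4 / n) * |u 3| / n := by gcongr
      _ = _ := by field_simp; ring
  set w := |u 3| / n ^ 2 with hw
  set T := |H.tm u| / n ^ 2 with hT
  have hw0 : 0 ≤ w := by positivity
  have hT0 : 0 ≤ T := by positivity
  have haD : 0 ≤ a / D := by positivity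
  have h4 : w ≤ T + (a / D + b + c) := by
    refine h3.trans ?_
    have : (a / D + b + c) / n ≤ a / D + b + c := div_le_self (by positivity) hn
    linarith
  have m0 : |Pb β1 β2 (1 / n) u 0 + b1 * (u 1 + 2 * β1 * u 3) + b2 * (u 2 + 2 * β2 * u 3) + (b1 ^ 2 + b2 ^ 2) * u 3| ≤
      a + 1/4 * b + 1/4 * c + 1/8 * w := by
    refine (abs_add_le _ _).trans (add_le_add ((abs_add_le _ _).trans (add_le_add ((abs_add_le _ _).trans (add_le_add le_rfl k1)) k2)) k3)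
  have m1 : |Pb β1 β2 (1 / n) u 1 + 2 * b1 * u 3 / n| ≤ b + 1/2 * w := (abs_add_le _ _).trans (add_le_add le_rfl k4)
  have m2 : |Pb β1 β2 (1 / n) u 2 + 2 * b2 * u 3 / n| ≤ c + 1/2 * w := (abs_add_le _ _).trans (add_le_add le_rfl k5)
  have m0' : |Pb β1 β2 (1 / n) u 0 + b1 * (u 1 + 2 * β1 * u 3) + b2 * (u 2 + 2 * β2 * u 3) + (b1 ^ 2 + b2 ^ 2) * u 3| / D ≤
      a / D + 1/4 * b + 1/4 * c + 1/8 * w := by
    calc _ ≤ (a + 1/4 * b + 1/4 * c + 1/8 * w) / D := by gcongr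
      _ = a / D + (1/4 * b + 1/4 * c + 1/8 * w) / D := by ring
      _ ≤ a / D + (1/4 * b + 1/4 * c + 1/8 * w) := by
          have : (1/4 * b + 1/4 * c + 1/8 * w) / D ≤ 1/4 * b + 1/4 * c + 1/8 * w := div_le_self (by positivity) hD
          linarith
      _ = _ := by ring
  linarith

theorem G4_norm {β1 β2 D n : ℝ} (hD : 1 ≤ D) (u : G.E4) : G4 β1 β2 D n u ≤ 3 * ‖Pb β1 β2 (1 / n) u‖ := by
  unfold G4
  have h0 := abs_coord3 (Pb β1 β2 (1 / n) u) 0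
  have h1 := abs_coord3 (Pb β1 β2 (1 / n) u) 1
  have h2 := abs_coord3 (Pb β1 β2 (1 / n) u) 2
  have h3 : |Pb β1 β2 (1 / n) u 0| / D ≤ |Pb β1 β2 (1 / n) u 0| := div_le_self (abs_nonneg _) hD
  linarith

theorem Pb_sub (β1 β2 τ : ℝ) (z w : G.E4) (i : Fin 3) : Pb β1 β2 τ (z - w) i = Pb β1 β2 τ z i - Pb β1 β2 τ w i := by
  fin_cases i
  · show Pb β1 β2 τ (z - w) 0 = Pb β1 β2 τ z 0 - Pb β1 β2 τ w 0
    simp only [Pb0, PiLp.sub_apply]; ring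
  · show Pb β1 β2 τ (z - w) 1 = Pb β1 β2 τ z 1 - Pb β1 β2 τ w 1
    simp only [Pb1, PiLp.sub_apply]; ring
  · show Pb β1 β2 τ (z - w) 2 = Pb β1 β2 τ z 2 - Pb β1 β2 τ w 2
    simp only [Pb2, PiLp.sub_apply]; ring

/-! ### the gauges of the planks -/

theorem nl_nw (s : Fin 2 → ℝ) (τ : ℝ) (z : G.E4) : AN.nl s (mat4 nwM z) = Pb (s 0) (s 1) τ z 0 := by
  unfold AN.nl
  rw [nw0, nw1, nw2, nw3, Pb0]
  ring

theorem dv_nw (s : Fin 2 → ℝ) (z : G.E4) : AN.dv s (mat4 nwM z) 0 = -(z 1 + 2 * s 0 * z 3) ∧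
    AN.dv s (mat4 nwM z) 1 = -(z 2 + 2 * s 1 * z 3) := by
  unfold AN.dv
  constructor
  · show mat4 nwM z 0 - s 0 * mat4 nwM z 2 = _
    rw [nw0, nw2]; ring
  · show mat4 nwM z 1 - s 1 * mat4 nwM z 2 = _
    rw [nw1, nw2]; ring

theorem nl_pt (ρ0 ρ : ℝ) (s : Fin 2 → ℝ) (o : Z2) (w : ℤ) (z : G.E4) : AN.nl s (z - AN.pt ρ0 ρ 0 s o w) = AN.nl s z - ρ0 * w := by
  unfold AN.nl AN.pt
  simp only [PiLp.sub_apply, PiLp.toLp_apply, Matrix.cons_val_zero, Matrix.cons_val_one, Matrix.cons_val]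
  ring

theorem dv_pt (ρ0 ρ : ℝ) (s : Fin 2 → ℝ) (o : Z2) (w : ℤ) (z : G.E4) : AN.dv s (z - AN.pt ρ0 ρ 0 s o w) 0 = AN.dv s z 0 - ρ * o 0 ∧
    AN.dv s (z - AN.pt ρ0 ρ 0 s o w) 1 = AN.dv s z 1 - ρ * o 1 := by
  unfold AN.dv AN.pt
  constructor
  · simp only [PiLp.sub_apply, PiLp.toLp_apply, Matrix.cons_val_zero, Matrix.cons_val_one, Matrix.cons_val]
    ring
  · simp only [PiLp.sub_apply, PiLp.toLp_apply, Matrix.cons_val_zero, Matrix.cons_val_one, Matrix.cons_val]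
    ring

theorem t_pt (ρ0 ρ : ℝ) (s : Fin 2 → ℝ) (o : Z2) (w : ℤ) (z : G.E4) : (z - AN.pt ρ0 ρ 0 s o w) 2 = z 2 := by
  unfold AN.pt
  simp only [PiLp.sub_apply, PiLp.toLp_apply, Matrix.cons_val]
  ring

/-- the centre of the plank in the coordinates `Pb` -/
noncomputable def cS (κ : ℕ) (S : Pk) : G.E3 := !₂[2 ^ κ * (S.w : ℝ), -(S.o 0 : ℝ), -(S.o 1 : ℝ)]

section
variable (κ : ℕ) (S : Pk)
theorem cS0 : cS κ S 0 = 2 ^ κ * (S.w : ℝ) := rfl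
theorem cS1 : cS κ S 1 = -(S.o 0 : ℝ) := rfl
theorem cS2 : cS κ S 2 = -(S.o 1 : ℝ) := rfl
end

/-- components of the slope -/
noncomputable def sl (K n : ℕ) (θ : Z2) (i : Fin 2) : ℝ := (θ i : ℝ) / 2 ^ (K * n)

theorem slp_eq (K n : ℕ) (θ : Z2) (i : Fin 2) : AN.slp n K θ i = sl K n θ i := rfl

/-- the gauge of the infinite plank in the old coordinates -/
theorem g0_nw (κ K n : ℕ) (S : Pk) (z : G.E4) : S.g0 κ K n (mat4 nwM z) =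
    |Pb (sl K n S.θ 0) (sl K n S.θ 1) (1 / 2 ^ (K * n)) z 0 - cS κ S 0| / 2 ^ κ +
    |Pb (sl K n S.θ 0) (sl K n S.θ 1) (1 / 2 ^ (K * n)) z 1 - cS κ S 1| +
    |Pb (sl K n S.θ 0) (sl K n S.θ 1) (1 / 2 ^ (K * n)) z 2 - cS κ S 2| := by
  unfold Pk.g0
  rw [nl_pt, (dv_pt _ _ _ _ _ _).1, (dv_pt _ _ _ _ _ _).2, (dv_nw _ _).1, (dv_nw _ _).2, nl_nw _ (1 / 2 ^ (K * n)),
    slp_eq, slp_eq, cS0, cS1, cS2, Pb1, Pb2]
  have hN : (0:ℝ) < 2 ^ (K * n) := by positivity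
  have e1 : |-(z 1 + 2 * sl K n S.θ 0 * z 3) - 2 ^ (K * n) * (S.o 0 : ℝ)| / 2 ^ (K * n) =
      |1 / 2 ^ (K * n) * (z 1 + 2 * sl K n S.θ 0 * z 3) - -(S.o 0 : ℝ)| := by
    have : 1 / (2:ℝ) ^ (K * n) * (z 1 + 2 * sl K n S.θ 0 * z 3) - -(S.o 0 : ℝ) =
      -(-(z 1 + 2 * sl K n S.θ 0 * z 3) - 2 ^ (K * n) * (S.o 0 : ℝ)) / 2 ^ (K * n) := by field_simp; ring
    rw [this, abs_div, abs_neg, abs_of_pos hN]
  have e2 : |-(z 2 + 2 * sl K n S.θ 1 * z 3) - 2 ^ (K * n) * (S.o 1 : ℝ)| / 2 ^ (K * n) =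
      |1 / 2 ^ (K * n) * (z 2 + 2 * sl K n S.θ 1 * z 3) - -(S.o 1 : ℝ)| := by
    have : 1 / (2:ℝ) ^ (K * n) * (z 2 + 2 * sl K n S.θ 1 * z 3) - -(S.o 1 : ℝ) =
      -(-(z 2 + 2 * sl K n S.θ 1 * z 3) - 2 ^ (K * n) * (S.o 1 : ℝ)) / 2 ^ (K * n) := by field_simp; ring
    rw [this, abs_div, abs_neg, abs_of_pos hN]
  rw [← e1, ← e2]
  ring

theorem gg_eq (κ K n : ℕ) (S : Pk) (z : AN.E4) : S.gg κ K n z = S.g0 κ K n z + |z 2| / 2 ^ (2 * K * n) := by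
  unfold Pk.gg Pk.g0 AN.gau Vale.Agent.P122.C2.fw Vale.Agent.P122.C2.fn
  rw [t_pt]
  simp only [Real.cos_zero, Real.sin_zero]
  ring_nf

theorem g0_nonneg (κ K n : ℕ) (S : Pk) (z : AN.E4) : 0 ≤ S.g0 κ K n z := by
  unfold Pk.g0; positivity

theorem gg_nonneg (κ K n : ℕ) (S : Pk) (z : AN.E4) : 0 ≤ S.gg κ K n z := by
  rw [gg_eq]
  have := g0_nonneg κ K n S z
  positivity

/-- translation of the gauge -/
theorem g0_tr (κ K n : ℕ) (S : Pk) (z z' : G.E4) : S.g0 κ K n (mat4 nwM z') ≤ S.g0 κ K n (mat4 nwM z) +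
    G4 (sl K n S.θ 0) (sl K n S.θ 1) (2 ^ κ) (2 ^ (K * n)) (z - z') := by
  rw [g0_nw, g0_nw]
  unfold G4
  rw [Pb_sub, Pb_sub, Pb_sub]
  have key : ∀ a b c : ℝ, |b - c| ≤ |a - c| + |a - b| := by
    intro a b c
    have : b - c = (a - c) - (a - b) := by ring
    rw [this]; exact abs_sub _ _
  have h0 : (0:ℝ) < 2 ^ κ := by positivity
  have k0 : |Pb (sl K n S.θ 0) (sl K n S.θ 1) (1 / 2 ^ (K * n)) z' 0 - cS κ S 0| / 2 ^ κ ≤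
      |Pb (sl K n S.θ 0) (sl K n S.θ 1) (1 / 2 ^ (K * n)) z 0 - cS κ S 0| / 2 ^ κ +
      |Pb (sl K n S.θ 0) (sl K n S.θ 1) (1 / 2 ^ (K * n)) z 0 - Pb (sl K n S.θ 0) (sl K n S.θ 1) (1 / 2 ^ (K * n)) z' 0| / 2 ^ κ := by
    rw [← add_div]
    exact div_le_div_of_nonneg_right (key _ _ _) h0.le
  have k1 := key (Pb (sl K n S.θ 0) (sl K n S.θ 1) (1 / 2 ^ (K * n)) z 1) (Pb (sl K n S.θ 0) (sl K n S.θ 1) (1 / 2 ^ (K * n)) z' 1) (cS κ S 1)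
  have k2 := key (Pb (sl K n S.θ 0) (sl K n S.θ 1) (1 / 2 ^ (K * n)) z 2) (Pb (sl K n S.θ 0) (sl K n S.θ 1) (1 / 2 ^ (K * n)) z' 2) (cS κ S 2)
  linarith

/-- **Peetre inequality for the gauge of a plank** -/
theorem gg_peetre {H : Hyp} (hb : H.Bd) {κ K n : ℕ} {S : Pk} {β1 β2 : ℝ} (hκ : κ ≤ K * n) (hm : 1 ≤ H.m β1 β2) (h1 : 0 ≤ β1)
    (h1' : β1 ≤ 1) (h2 : 0 ≤ β2) (h2' : β2 ≤ 1) (d1 : |sl K n S.θ 0 - β1| ≤ 1/4 / 2 ^ (K * n))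
    (d2 : |sl K n S.θ 1 - β2| ≤ 1/4 / 2 ^ (K * n)) (z z' : G.E4) (hz : H.tm z' = 0) :
    1 + S.gg κ K n (mat4 nwM z') ≤ 24 * ((1 + ‖Pb β1 β2 (1 / 2 ^ (K * n)) (z - z')‖) * (1 + |(1 / (2:ℝ) ^ (K * n)) ^ 2 * H.tm z|)) *
      (1 + S.gg κ K n (mat4 nwM z)) := by
  set N : ℝ := 2 ^ (K * n) with hN
  have hN1 : 1 ≤ N := one_le_pow₀ (by norm_num)
  have hN0 : 0 < N := by linarith
  have hD1 : (1:ℝ) ≤ 2 ^ κ := one_le_pow₀ (by norm_num)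
  have hDN : (2:ℝ) ^ κ ≤ N := pow_le_pow_right₀ (by norm_num) hκ
  have htm : H.tm (z - z') = H.tm z := by rw [G.tm_sub, hz, sub_zero]
  have c1 := G4_cmp hb (β1' := sl K n S.θ 0) (β2' := sl K n S.θ 1) hm h1 h1' h2 h2' hN1 hD1 hDN d1 d2 (z - z')
  have c2 := u3_G4 hb hm h1 h1' h2 h2' hN1 (by linarith) hDN (z - z')
  have c3 := G4_norm (β1 := β1) (β2 := β2) (n := N) hD1 (z - z')
  have c4 := g0_tr κ K n S z z'
  rw [htm] at c1 c2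
  set Q := ‖Pb β1 β2 (1 / N) (z - z')‖ with hQ
  have hQ0 : 0 ≤ Q := norm_nonneg _
  have hT : |(1 / N) ^ 2 * H.tm z| = |H.tm z| / N ^ 2 := by
    rw [abs_mul, abs_of_pos (by positivity)]; ring
  rw [hT]
  set T := |H.tm z| / N ^ 2 with hTd
  have hT0 : 0 ≤ T := by positivity
  have hG0 := G4_nonneg (β1 := β1) (β2 := β2) (n := N) (by linarith : (0:ℝ) ≤ 2 ^ κ) (z - z')
  have c5 : G4 β1 β2 (2 ^ κ) N (z - z') / N ≤ G4 β1 β2 (2 ^ κ) N (z - z') := div_le_self hG0 hN1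
  rw [gg_eq, gg_eq, nw2, nw2]
  have e2 : (2:ℝ) ^ (2 * K * n) = N ^ 2 := by rw [hN, ← pow_mul]; congr 1; ring
  rw [e2]
  have hs : |2 * z' 3| / N ^ 2 ≤ |2 * z 3| / N ^ 2 + 2 * (|(z - z') 3| / N ^ 2) := by
    have : 2 * z' 3 = 2 * z 3 - 2 * (z - z') 3 := by rw [PiLp.sub_apply]; ring
    rw [this]
    have h3 : |2 * z 3 - 2 * (z - z') 3| ≤ |2 * z 3| + 2 * |(z - z') 3| := by
      refine (abs_sub _ _).trans ?_
      rw [abs_mul 2 ((z - z') 3), abs_two]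
    calc _ ≤ (|2 * z 3| + 2 * |(z - z') 3|) / N ^ 2 := by gcongr
      _ = _ := by ring
  set g := S.g0 κ K n (mat4 nwM z) with hg
  have hg0 : 0 ≤ g := g0_nonneg _ _ _ _ _
  set v := |2 * z 3| / N ^ 2 with hv
  have hv0 : 0 ≤ v := by positivity
  have f1 : 1 + (S.g0 κ K n (mat4 nwM z') + |2 * z' 3| / N ^ 2) ≤ 1 + (g + v) + 18 * Q + 6 * T := by linarith
  refine f1.trans ?_
  have f2 : 0 ≤ Q * T := by positivity
  have f3 : 0 ≤ Q * (g + v) := by positivity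
  have f4 : 0 ≤ T * (g + v) := by positivity
  have f5 : 0 ≤ Q * T * (g + v) := by positivity
  nlinarith

/-! ### the plates -/

/-- base point of the plank on the data hyperplane -/
noncomputable def yS (H : Hyp) (κ K n : ℕ) (S : Pk) : G.E3 :=
  mat3 ((H.AT (sl K n S.θ 0) (sl K n S.θ 1) (1 / 2 ^ (K * n))).transpose)⁻¹ (cS κ S)

theorem Pb_yS {H : Hyp} {κ K n : ℕ} {S : Pk} (hm : 1 ≤ H.m (sl K n S.θ 0) (sl K n S.θ 1)) :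
    Pb (sl K n S.θ 0) (sl K n S.θ 1) (1 / 2 ^ (K * n)) (H.pt (yS H κ K n S)) = cS κ S := by
  have hd : (H.AT (sl K n S.θ 0) (sl K n S.θ 1) (1 / 2 ^ (K * n))).transpose.det ≠ 0 := by
    rw [Matrix.det_transpose]
    exact (G.AT_det_pos (by linarith) (by positivity)).ne'
  have h := AT_Pb H (sl K n S.θ 0) (sl K n S.θ 1) (1 / 2 ^ (K * n)) 0 (yS H κ K n S) 0
  rw [map_zero, zero_smul, add_zero, sub_zero, ← G.pt_zt] at h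
  have e : H.pt 0 = 0 := by
    unfold Hyp.pt
    apply G.ext4 <;> simp
  rw [e, sub_zero] at h
  rw [← h]
  unfold yS
  rw [G.mat3_inv_right hd]

/-- the centre of the plate of the shifted direction -/
noncomputable def xS (H : Hyp) (κ K n : ℕ) (b1 b2 : ℝ) (S : Pk) : G.E3 :=
  Pb (sl K n S.θ 0 + b1) (sl K n S.θ 1 + b2) (1 / 2 ^ (K * n)) (H.pt (yS H κ K n S))

/-- gauge of the plate -/
noncomputable def pgr (H : Hyp) (κ K n : ℕ) (b1 b2 : ℝ) (S : Pk) (y : G.E3) : ℝ :=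
  |Pb (sl K n S.θ 0 + b1) (sl K n S.θ 1 + b2) (1 / 2 ^ (K * n)) (H.pt y) 0 - xS H κ K n b1 b2 S 0| / 2 ^ κ +
    |Pb (sl K n S.θ 0 + b1) (sl K n S.θ 1 + b2) (1 / 2 ^ (K * n)) (H.pt y) 1 - xS H κ K n b1 b2 S 1| +
    |Pb (sl K n S.θ 0 + b1) (sl K n S.θ 1 + b2) (1 / 2 ^ (K * n)) (H.pt y) 2 - xS H κ K n b1 b2 S 2|

theorem pgr_eq (H : Hyp) (κ K n : ℕ) (b1 b2 : ℝ) (S : Pk) (y : G.E3) : pgr H κ K n b1 b2 S y =
    G4 (sl K n S.θ 0 + b1) (sl K n S.θ 1 + b2) (2 ^ κ) (2 ^ (K * n)) (H.pt y - H.pt (yS H κ K n S)) := by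
  unfold pgr G4 xS
  rw [Pb_sub, Pb_sub, Pb_sub]

theorem g0_eq' {H : Hyp} {κ K n : ℕ} {S : Pk} (hm : 1 ≤ H.m (sl K n S.θ 0) (sl K n S.θ 1)) (y : G.E3) :
    S.g0 κ K n (mat4 nwM (H.pt y)) = G4 (sl K n S.θ 0) (sl K n S.θ 1) (2 ^ κ) (2 ^ (K * n)) (H.pt y - H.pt (yS H κ K n S)) := by
  rw [g0_nw]
  unfold G4
  rw [Pb_sub, Pb_sub, Pb_sub, Pb_yS hm]

/-- comparison of the two gauges on the data hyperplane -/
theorem pg_cmp {H : Hyp} (hb : H.Bd) {κ K n : ℕ} {S : Pk} {b1 b2 : ℝ} (hκ : κ ≤ K * n) (hm : 1 ≤ H.m (sl K n S.θ 0) (sl K n S.θ 1))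
    (hm' : 1 ≤ H.m (sl K n S.θ 0 + b1) (sl K n S.θ 1 + b2)) (h1 : 0 ≤ sl K n S.θ 0) (h1' : sl K n S.θ 0 ≤ 1)
    (h2 : 0 ≤ sl K n S.θ 1) (h2' : sl K n S.θ 1 ≤ 1) (g1 : 0 ≤ sl K n S.θ 0 + b1) (g1' : sl K n S.θ 0 + b1 ≤ 1)
    (g2 : 0 ≤ sl K n S.θ 1 + b2) (g2' : sl K n S.θ 1 + b2 ≤ 1) (d1 : |b1| ≤ 1/4 / 2 ^ (K * n)) (d2 : |b2| ≤ 1/4 / 2 ^ (K * n))
    (y : G.E3) : pgr H κ K n b1 b2 S y ≤ 4 * S.g0 κ K n (mat4 nwM (H.pt y)) ∧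
      S.g0 κ K n (mat4 nwM (H.pt y)) ≤ 4 * pgr H κ K n b1 b2 S y := by
  have hN1 : (1:ℝ) ≤ 2 ^ (K * n) := one_le_pow₀ (by norm_num)
  have hD1 : (1:ℝ) ≤ 2 ^ κ := one_le_pow₀ (by norm_num)
  have hDN : (2:ℝ) ^ κ ≤ 2 ^ (K * n) := pow_le_pow_right₀ (by norm_num) hκ
  have htm : H.tm (H.pt y - H.pt (yS H κ K n S)) = 0 := by rw [G.tm_sub, G.tm_pt, G.tm_pt, sub_zero]
  rw [pgr_eq, g0_eq' hm]
  have c1 := G4_cmp hb (β1' := sl K n S.θ 0 + b1) (β2' := sl K n S.θ 1 + b2) hm h1 h1' h2 h2' hN1 hD1 hDN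
    (by rw [add_sub_cancel_left]; exact d1) (by rw [add_sub_cancel_left]; exact d2) (H.pt y - H.pt (yS H κ K n S))
  have c2 := G4_cmp hb (β1' := sl K n S.θ 0) (β2' := sl K n S.θ 1) hm' g1 g1' g2 g2' hN1 hD1 hDN
    (by rw [sub_add_cancel_left, abs_neg]; exact d1) (by rw [sub_add_cancel_left, abs_neg]; exact d2) (H.pt y - H.pt (yS H κ K n S))
  rw [htm, abs_zero, zero_div, add_zero] at c1 c2
  exact ⟨c1, c2⟩

end Vale.Agent.P106.W301
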