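import Vale.Agent.P106.W301.LinP
import Vale.Agent.P106.W401.Gl
import Vale.Agent.P106.LS.Stmt

/-! # P106 / W2 : from the estimate (E) for the truncated cone to local smoothing (helper301, helper401) -/

open MeasureTheory Complex Set
open scoped ENNReal NNReal FourierTransform

namespace Vale.Agent.P106.W301

/-- **W2**: the frequency localized estimate of exponent `P` from the estimate (E) -/
theorem gl_of_stE {P : ℝ} (hP : 2 < P) (hE : StE P) : ∀ a : ℝ, 0 < a → G.StGL P a X0 :=
  W401.gl_of_lin hP (lin_of hP hE)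

/-- Question 1 from (E) at the critical exponent -/
theorem question1_of_stE (hE : StE 3) : Stmt.Question1 :=
  Stmt.question1_of_three (gl_of_stE (by norm_num) hE)

/-- the partial target from (E) at `p0 = 2 + 2 / N` -/
theorem partial_of_stE {p0 : ℝ} (h0 : 2 < p0) (hE : StE p0) :
    (∀ p α : ℝ, 2 < p → p ≤ p0 → 0 < α → Stmt.LS p α) ∧ (∀ p α : ℝ, p0 ≤ p → 1 - p0 / p < α → Stmt.LS p α) :=
  Stmt.partial_of h0 (gl_of_stE h0 hE)

end Vale.Agent.P106.W301
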